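import Vale.Agent.P216E.Loc
import Mathlib.Analysis.SpecialFunctions.SmoothTransition
import Mathlib.Analysis.SpecialFunctions.Trigonometric.Deriv

/-! P216E: cutting off along a tube -/

open MeasureTheory Set Filter
open scoped ContDiff Topology

namespace Vale.Agent.P216E

/-- the profiles of the cut -/
structure Prof (M : ℝ) (c s w : ℝ → ℝ) : Prop where
  one : 1 ≤ M
  hc : ContDiff ℝ ∞ c
  hs : ContDiff ℝ ∞ s
  hw : Continuous w
  sq : ∀ y, c y ^ 2 + s y ^ 2 = 1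
  s0 : ∀ y ≤ 1 / 2, s y = 0
  c0 : ∀ y, 1 ≤ y → c y = 0
  wn : ∀ y, 0 ≤ w y
  wle : ∀ y, w y ≤ 1
  w0 : ∀ y ≤ 0, w y = 0
  w1 : ∀ y, 1 / 2 ≤ y → w y = 1
  bd : ∀ y, |deriv c y| ≤ M ∧ |deriv (deriv c) y| ≤ M ∧ |deriv s y| ≤ M
  off : ∀ y ∉ Icc (1 / 2 : ℝ) 1, deriv c y = 0 ∧ deriv (deriv c) y = 0 ∧ deriv s y = 0

lemma exists_prof : ∃ M c s w, Prof M c s w := by
  let θ : ℝ → ℝ := fun y => Real.pi / 2 * Real.smoothTransition (2 * y - 1)
  have hθ : ContDiff ℝ ∞ θ :=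
    contDiff_const.mul (Real.smoothTransition.contDiff.comp (by fun_prop))
  have h0 : ∀ y ≤ 1 / 2, θ y = 0 := fun y hy => by
    simp only [θ, Real.smoothTransition.zero_of_nonpos (show 2 * y - 1 ≤ 0 by linarith), mul_zero]
  have h1 : ∀ y, 1 ≤ y → θ y = Real.pi / 2 := fun y hy => by
    simp only [θ, Real.smoothTransition.one_of_one_le (show 1 ≤ 2 * y - 1 by linarith), mul_one]
  have key : ∀ F : ℝ → ℝ, ∀ y ∉ Icc (1 / 2 : ℝ) 1, deriv (fun y => F (θ y)) =ᶠ[𝓝 y] fun _ => 0 := by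
    intro F y hy
    rcases not_and_or.1 hy with h | h
    · have : (fun y => F (θ y)) =ᶠ[𝓝 y] fun _ => F 0 := by
        filter_upwards [Iio_mem_nhds (not_le.1 h)] with z hz using by rw [h0 z (le_of_lt hz)]
      simpa using this.deriv
    · have : (fun y => F (θ y)) =ᶠ[𝓝 y] fun _ => F (Real.pi / 2) := by
        filter_upwards [Ioi_mem_nhds (not_le.1 h)] with z hz using by rw [h1 z (le_of_lt hz)]
      simpa using this.deriv
  have hc : ContDiff ℝ ∞ fun y => Real.cos (θ y) := Real.contDiff_cos.comp hθ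
  have hs : ContDiff ℝ ∞ fun y => Real.sin (θ y) := Real.contDiff_sin.comp hθ
  have off : ∀ y ∉ Icc (1 / 2 : ℝ) 1, deriv (fun y => Real.cos (θ y)) y = 0 ∧
      deriv (deriv fun y => Real.cos (θ y)) y = 0 ∧ deriv (fun y => Real.sin (θ y)) y = 0 :=
    fun y hy => ⟨(key _ y hy).self_of_nhds, by simpa using (key Real.cos y hy).deriv_eq,
      (key _ y hy).self_of_nhds⟩
  have d1 := (contDiff_infty_iff_deriv.1 hc).2
  have d2 := (contDiff_infty_iff_deriv.1 d1).2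
  have d3 := (contDiff_infty_iff_deriv.1 hs).2
  obtain ⟨M, hM⟩ := (isCompact_Icc (a := (1 / 2 : ℝ)) (b := 1)).exists_bound_of_continuousOn
    ((d1.continuous.abs.add d2.continuous.abs).add d3.continuous.abs).continuousOn
  refine ⟨max M 1, _, _, fun y => Real.smoothTransition (2 * y), le_max_right _ _, hc, hs,
    Real.smoothTransition.continuous.comp (by fun_prop), fun y => Real.cos_sq_add_sin_sq _,
    fun y hy => by rw [h0 y hy, Real.sin_zero], fun y hy => by rw [h1 y hy, Real.cos_pi_div_two],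
    fun y => Real.smoothTransition.nonneg _, fun y => Real.smoothTransition.le_one _,
    fun y hy => Real.smoothTransition.zero_of_nonpos (by linarith),
    fun y hy => Real.smoothTransition.one_of_one_le (by linarith), fun y => ?_, off⟩
  have := le_max_left M 1
  have := le_max_right M 1
  by_cases hy : y ∈ Icc (1 / 2 : ℝ) 1
  · have h := (le_abs_self _).trans (hM y hy)
    simp only [Pi.add_apply] at h
    have a1 := abs_nonneg (deriv (fun y => Real.cos (θ y)) y)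
    have a2 := abs_nonneg (deriv (deriv fun y => Real.cos (θ y)) y)
    have a3 := abs_nonneg (deriv (fun y => Real.sin (θ y)) y)
    exact ⟨by linarith, by linarith, by linarith⟩
  · simp only [off y hy, abs_zero]
    exact ⟨by linarith, by linarith, by linarith⟩

lemma geom_pick {E : ℕ → ℝ} (h0 : ∀ k, 0 ≤ E k) {K : ℕ} (hK : 2 ≤ K) :
    ∃ k, 1 ≤ k ∧ k + 1 ≤ K ∧ E k / 8 - 5 * E (k + 1) / 8 ≤ 25 / 8 * E 1 / 5 ^ K := by
  by_contra! h
  have h1 : 0 ≤ 25 / 8 * E 1 / 5 ^ K := by have := h0 1; positivity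
  have h2 : ∀ j, j + 2 ≤ K → 5 ^ j * E (j + 1) ≤ E 1 := fun j => by
    induction j with
    | zero => simp
    | succ j ih =>
      intro hj
      have h3 := h (j + 1) (by omega) (by omega)
      have h4 : 5 * E (j + 1 + 1) ≤ E (j + 1) := by linarith
      have h5 := mul_le_mul_of_nonneg_left h4 (show (0 : ℝ) ≤ 5 ^ j by positivity)
      have := ih (by omega)
      rw [pow_succ]; linarith
  obtain ⟨j, rfl⟩ := Nat.exists_eq_add_of_le' hK
  have h3 := h (j + 1) (by omega) le_rfl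
  have h4 := h2 j le_rfl
  have h5 := h0 (j + 1 + 1)
  have h6 : 25 / 8 * E 1 / 5 ^ (j + 2) < E (j + 1) / 8 := by linarith
  rw [div_lt_iff₀ (by positivity), pow_add] at h6
  nlinarith

variable {X : Type*} [TopologicalSpace X] [MeasurableSpace X]

namespace Tri.Ok

variable {T : Tri X} (H : T.Ok) {φ ψ β : X → ℝ} {x : X} {τ m A lam k K M : ℝ} {c s w : ℝ → ℝ}
include H

lemma shS (hc : ContDiff ℝ ∞ c) (hψ : ψ ∈ T.S) (k : ℝ) : (fun x => c (ψ x - k)) ∈ T.S :=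
  H.comp _ hψ (fun r => c (r - k)) fun _ _ => (hc.comp (by fun_prop)).contDiffAt

lemma shΓ (hc : ContDiff ℝ ∞ c) (hψ : ψ ∈ T.S) (k : ℝ) (hφ : φ ∈ T.S) (hx : x ∈ T.U) :
    T.Γ (fun x => c (ψ x - k)) φ x = deriv c (ψ x - k) * T.Γ ψ φ x := by
  rw [H.Γ_comp _ hψ (fun r => c (r - k)) (fun _ _ => (hc.comp (by fun_prop)).contDiffAt) _ hφ x hx,
    deriv_comp_sub_const]

lemma shΓΓ (hc : ContDiff ℝ ∞ c) (hψ : ψ ∈ T.S) (k : ℝ) (hx : x ∈ T.U) :
    T.Γ (fun x => c (ψ x - k)) (fun x => c (ψ x - k)) x = deriv c (ψ x - k) ^ 2 * T.Γ ψ ψ x := by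
  rw [H.shΓ hc hψ k (H.shS hc hψ k) hx, H.Γ_comm _ hψ _ (H.shS hc hψ k) x hx, H.shΓ hc hψ k hψ hx]
  ring

lemma shL (hc : ContDiff ℝ ∞ c) (hψ : ψ ∈ T.S) (k : ℝ) (hx : x ∈ T.U) :
    T.L (fun x => c (ψ x - k)) x =
      deriv c (ψ x - k) * T.L ψ x + deriv (deriv c) (ψ x - k) * T.Γ ψ ψ x := by
  have e : deriv (fun r => c (r - k)) = fun r => deriv c (r - k) :=
    funext fun r => deriv_comp_sub_const _ _ _
  rw [H.L_comp _ hψ (fun r => c (r - k)) (fun _ _ => (hc.comp (by fun_prop)).contDiffAt) x hx, e,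
    deriv_comp_sub_const]

omit H in
lemma log01 (P : Prof M c s w) {y : ℝ} (hy : y ∉ Icc (1 / 2 : ℝ) 1) :
    c y ^ 2 * Real.log (c y ^ 2) = 0 ∧ s y ^ 2 * Real.log (s y ^ 2) = 0 := by
  have := P.sq y
  rcases not_and_or.1 hy with h | h
  · rw [P.s0 y (not_le.1 h).le] at this ⊢
    rw [show c y ^ 2 = 1 by linarith]; simp
  · rw [P.c0 y (not_le.1 h).le] at this ⊢
    rw [show s y ^ 2 = 1 by linarith]; simp

/-- the gain on the far side of the cut -/
lemma gain (P : Prof M c s w) (hψ : ψ ∈ T.S) (hφ : φ ∈ T.S) (hτ : 0 < τ) (hA : 0 < A)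
    (hk : 0 ≤ k) (hR : ∀ x ∈ T.U, 0 < ψ x → 0 ≤ T.R x) (hS : T.Sob {x | 0 < ψ x} A 0)
    (hm : lam + 8 ≤ -m - cS A) (h1 : ∫ x, φ x ^ 2 ∂T.μ ≤ 1) :
    (∫ x, w (ψ x - (k + 1)) * (τ * (4 * T.Γ φ φ x + T.R x * φ x ^ 2) + 16 * φ x ^ 2) ∂T.μ) / 2
      + lam * ∫ x, (s (ψ x - k) * φ x) ^ 2 ∂T.μ ≤ ∫ x, (s (ψ x - k) ^ 2 * max (T.v τ m φ x) 0 +
        (4 * τ * (deriv s (ψ x - k) ^ 2 * T.Γ ψ ψ x)
          - s (ψ x - k) ^ 2 * Real.log (s (ψ x - k) ^ 2)) * φ x ^ 2) ∂T.μ := by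
  have hη := H.shS P.hs hψ k
  have h2 := H.loc hS hA hτ m hη hφ
    (fun x _ hx' => P.s0 _ (by simp only [mem_ofPred_eq, not_lt] at hx'; linarith))
    (fun x _ => by nlinarith [P.sq (ψ x - k), sq_nonneg (c (ψ x - k))]) h1
  rw [H.int_congr (f := fun x => s (ψ x - k) ^ 2 * max (T.v τ m φ x) 0 + _ * φ x ^ 2)
    fun x hx => by rw [H.shΓΓ P.hs hψ k hx]] at h2
  refine le_trans ?_ h2
  have c1 := H.cont _ hφ
  have c2 := H.cont _ hη
  have c3 := H.cont _ H.RS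
  have c4 := H.cont _ (H.ΓS _ hφ _ hφ)
  have c5 := H.cont _ (H.ΓS _ (H.mul hη hφ) _ (H.mul hη hφ))
  have c6 := P.hw
  have c7 := P.hs.continuous
  have c0 := H.cont _ hψ
  have h3 : ∫ x, w (ψ x - (k + 1)) * (τ * (4 * T.Γ φ φ x + T.R x * φ x ^ 2) + 16 * φ x ^ 2) ∂T.μ ≤
      ∫ x, (τ * (4 * T.Γ (fun y => s (ψ y - k) * φ y) (fun y => s (ψ y - k) * φ y) x
        + (T.R x + 0) * (s (ψ x - k) * φ x) ^ 2) + 16 * (s (ψ x - k) * φ x) ^ 2) ∂T.μ := by
    refine H.int_mono (by fun_prop) (by fun_prop) fun x hx => ?_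
    rcases le_or_gt (ψ x - k) 1 with h | h
    · rw [P.w0 _ (by linarith), zero_mul, add_zero]
      have e1 := H.Γ_nonneg _ (H.mul hη hφ) x hx
      have e2 : 0 ≤ T.R x * (s (ψ x - k) * φ x) ^ 2 := by
        rcases le_or_gt (ψ x) 0 with h' | h'
        · rw [P.s0 _ (by linarith)]; simp
        · exact mul_nonneg (hR x hx h') (sq_nonneg _)
      positivity
    · have e1 := P.sq (ψ x - k)
      have e2 := (P.off (ψ x - k) fun h' => absurd h'.2 (not_le.2 h)).2.2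
      rw [P.c0 _ h.le] at e1
      rw [H.Γ_mul_self hη hφ hx, H.shΓΓ P.hs hψ k hx, H.shΓ P.hs hψ k hφ hx, e2, mul_pow,
        show s (ψ x - k) ^ 2 = 1 by linarith]
      have e3 := H.Γ_nonneg _ hφ x hx
      have e4 := hR x hx (by linarith)
      refine (mul_le_of_le_one_left (by positivity) (P.wle _)).trans (le_of_eq (by ring))
  rw [H.int_add (by fun_prop) (by fun_prop), integral_const_mul, integral_const_mul] at h3
  have h4 : 0 ≤ ∫ x, (s (ψ x - k) * φ x) ^ 2 ∂T.μ := H.int_nonneg fun _ _ => sq_nonneg _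
  nlinarith

/-- one cut -/
lemma step (P : Prof M c s w) (hψ : ψ ∈ T.S) (hφ : φ ∈ T.S) (hτ : 0 < τ) (hA : 0 < A)
    (hk : 0 ≤ k) (hK : k + 1 ≤ K) (hl : 0 ≤ lam)
    (hd : ∀ x ∈ T.U, 1 / 2 ≤ ψ x → ψ x ≤ K →
      T.Γ ψ ψ x ≤ 1 / (1152 * M ^ 2) * T.R x ∧ |T.L ψ x| ≤ 1 / (1152 * M ^ 2) * T.R x)
    (hR : ∀ x ∈ T.U, 0 < ψ x → 0 ≤ T.R x) (hS : T.Sob {x | 0 < ψ x} A 0)
    (hm : lam + 8 ≤ -m - cS A) (h1 : ∫ x, φ x ^ 2 ∂T.μ ≤ 1) (hβ : ContinuousOn β T.U)
    (hβ1 : ∀ x ∈ T.U, β x ≤ 1) :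
    ∫ x, max (T.v τ m (fun y => c (ψ y - k) * φ y) x) 0 ∂T.μ
      - lam * ∫ x, β x * (c (ψ x - k) * φ x) ^ 2 ∂T.μ ≤
    ∫ x, max (T.v τ m φ x) 0 ∂T.μ - lam * ∫ x, β x * φ x ^ 2 ∂T.μ +
      ((∫ x, w (ψ x - k) * (τ * (4 * T.Γ φ φ x + T.R x * φ x ^ 2) + 16 * φ x ^ 2) ∂T.μ) / 8 - 5 *
      (∫ x, w (ψ x - (k + 1)) * (τ * (4 * T.Γ φ φ x + T.R x * φ x ^ 2) + 16 * φ x ^ 2) ∂T.μ) / 8) := by
  have h2 := H.gain P hψ hφ hτ hA hk hR hS hm h1
  have hη := H.shS P.hs hψ k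
  have hχ := H.shS P.hc hψ k
  have c0 := H.cont _ hψ
  have c1 := H.cont _ hφ
  have c2 := H.cont _ hη
  have c2' := H.cont _ hχ
  have c3 := H.cont _ H.RS
  have c4 := H.cont _ (H.ΓS _ hφ _ hφ)
  have c4' := H.cont _ (H.ΓS _ hψ _ hψ)
  have c5 := H.cont_v τ m hφ
  have c5' := H.cont_v τ m (H.mul hχ hφ)
  have c6 := P.hw
  have c6a := P.hs.continuous
  have c6b := P.hc.continuous
  have c7 := H.cont_ent hη
  have c8 : ContinuousOn (fun x => deriv s (ψ x - k)) T.U :=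
    (contDiff_infty_iff_deriv.1 P.hs).2.continuous.comp_continuousOn (c0.sub continuousOn_const)
  have h3 : ∫ x, (max (T.v τ m (fun y => c (ψ y - k) * φ y) x) 0 + (s (ψ x - k) ^ 2 *
      max (T.v τ m φ x) 0 + (4 * τ * (deriv s (ψ x - k) ^ 2 * T.Γ ψ ψ x)
        - s (ψ x - k) ^ 2 * Real.log (s (ψ x - k) ^ 2)) * φ x ^ 2)) ∂T.μ ≤
      ∫ x, (max (T.v τ m φ x) 0 + 1 / 8 *
        (w (ψ x - k) * (τ * (4 * T.Γ φ φ x + T.R x * φ x ^ 2) + 16 * φ x ^ 2) -
        w (ψ x - (k + 1)) * (τ * (4 * T.Γ φ φ x + T.R x * φ x ^ 2) + 16 * φ x ^ 2))) ∂T.μ := by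
    refine H.int_mono (by fun_prop) (by fun_prop) fun x hx => ?_
    have e0 := P.sq (ψ x - k)
    have e1 := H.Γ_nonneg _ hφ x hx
    have e2 := le_max_left (T.v τ m φ x) 0
    have e3 := le_max_right (T.v τ m φ x) 0
    have e4 := mul_le_mul_of_nonneg_left e2 (sq_nonneg (c (ψ x - k)))
    have e5 := mul_nonneg (sq_nonneg (c (ψ x - k))) e3
    have e6 : s (ψ x - k) ^ 2 * max (T.v τ m φ x) 0 =
        max (T.v τ m φ x) 0 - c (ψ x - k) ^ 2 * max (T.v τ m φ x) 0 := by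
      linear_combination max (T.v τ m φ x) 0 * e0
    rw [H.v_mul τ m hχ hφ hx, e6]
    by_cases hy : ψ x - k ∈ Icc (1 / 2 : ℝ) 1
    · obtain ⟨d1, d2⟩ := hd x hx (by linarith [hy.1]) (by linarith [hy.2])
      obtain ⟨b1, b2, b3⟩ := P.bd (ψ x - k)
      have r0 := hR x hx (by linarith [hy.1])
      have g0 := H.Γ_nonneg _ hψ x hx
      have M1 := P.one
      set r := 1 / (1152 * M ^ 2) * T.R x
      have hr : M ^ 2 * r = T.R x / 1152 := by simp only [r]; field_simp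
      have r1 : 0 ≤ r := g0.trans d1
      have q1 : ∀ d : ℝ, |d| ≤ M → d ^ 2 * T.Γ ψ ψ x ≤ T.R x / 1152 := fun d hd => by
        rw [← hr]; exact mul_le_mul (sq_le_sq' (abs_le.1 hd).1 (abs_le.1 hd).2) d1 g0 (sq_nonneg _)
      have q2 : |T.L (fun x => c (ψ x - k)) x| ≤ 2 * (T.R x / 1152) := by
        rw [H.shL P.hc hψ k hx]
        refine (abs_add_le _ _).trans ?_
        rw [abs_mul, abs_mul, abs_of_nonneg g0, ← hr]
        have := mul_le_mul b1 d2 (abs_nonneg _) (by linarith)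
        have := mul_le_mul b2 d1 g0 (by linarith)
        have : M * r ≤ M ^ 2 * r := mul_le_mul_of_nonneg_right (by nlinarith) r1
        linarith
      have q3 := H.young (-16 * c (ψ x - k) * φ x) hφ hχ hx
      rw [H.shΓΓ P.hc hψ k hx, H.Γ_comm _ hφ _ hχ x hx] at q3
      have q4 : c (ψ x - k) ^ 2 ≤ 1 := by nlinarith [sq_nonneg (s (ψ x - k))]
      have q5 : (-16 * c (ψ x - k) * φ x) ^ 2 * (deriv c (ψ x - k) ^ 2 * T.Γ ψ ψ x) ≤
          256 * φ x ^ 2 * (T.R x / 1152) :=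
        mul_le_mul (by nlinarith [sq_nonneg (φ x)]) (q1 _ b1) (by positivity) (by positivity)
      have q6 : -(c (ψ x - k) * T.L (fun x => c (ψ x - k)) x) ≤ 2 * (T.R x / 1152) := by
        refine (neg_le_abs _).trans ?_
        rw [abs_mul]
        exact (mul_le_of_le_one_left (abs_nonneg _) ((sq_le_one_iff_abs_le_one _).1 q4)).trans q2
      have q7 := mul_le_mul_of_nonneg_left (q3.trans (add_le_add_right q5 _)) hτ.le
      have q8 := mul_le_mul_of_nonneg_left q6 (show 0 ≤ τ * φ x ^ 2 by positivity)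
      have q9 := mul_le_mul_of_nonneg_left (q1 _ b3) (show 0 ≤ τ * φ x ^ 2 by positivity)
      have l1 := mul_le_mul_of_nonneg_right (neg_mul_log_le (sq_nonneg (c (ψ x - k))))
        (sq_nonneg (φ x))
      have l2 := mul_le_mul_of_nonneg_right (neg_mul_log_le (sq_nonneg (s (ψ x - k))))
        (sq_nonneg (φ x))
      have p1 : 0 ≤ τ * T.Γ φ φ x := by positivity
      have p2 : 0 ≤ τ * (T.R x * φ x ^ 2) := by positivity
      have p3 := sq_nonneg (φ x)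
      rw [P.w1 _ hy.1, P.w0 _ (by linarith [hy.2]), ← le_sub_iff_add_le]
      exact max_le (by linarith) (by linarith)
    · obtain ⟨o1, o2, o3⟩ := P.off _ hy
      obtain ⟨l1, l2⟩ := log01 P hy
      rw [H.shL P.hc hψ k hx, H.shΓ P.hc hψ k hφ hx, o1, o2, o3, l1, l2, ← sub_mul]
      have z : 0 ≤ (w (ψ x - k) - w (ψ x - (k + 1))) *
          (τ * (4 * T.Γ φ φ x + T.R x * φ x ^ 2) + 16 * φ x ^ 2) := by
        rcases le_or_gt (ψ x - k) 0 with h | h
        · rw [P.w0 _ h, P.w0 _ (by linarith)]; simp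
        have r0 := hR x hx (by linarith)
        refine mul_nonneg (sub_nonneg.2 ?_) (by positivity)
        rcases le_or_gt (ψ x - k) 1 with h | h
        · rw [P.w0 (ψ x - (k + 1)) (by linarith)]; exact P.wn _
        · rw [P.w1 (ψ x - k) (by linarith)]; exact P.wle _
      rw [← le_sub_iff_add_le]
      exact max_le (by linarith) (by linarith)
  rw [H.int_add (by fun_prop) (by fun_prop),
    H.int_add (f := fun x => max (T.v τ m φ x) 0) (by fun_prop) (by fun_prop), integral_const_mul,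
    H.int_sub (by fun_prop) (by fun_prop)] at h3
  have h4 : ∫ x, β x * φ x ^ 2 ∂T.μ ≤
      ∫ x, (β x * (c (ψ x - k) * φ x) ^ 2 + (s (ψ x - k) * φ x) ^ 2) ∂T.μ := by
    refine H.int_mono (by fun_prop) (by fun_prop) fun x hx => ?_
    have := mul_le_mul_of_nonneg_right (hβ1 x hx) (sq_nonneg (s (ψ x - k) * φ x))
    have e : β x * φ x ^ 2 = β x * (c (ψ x - k) * φ x) ^ 2 + β x * (s (ψ x - k) * φ x) ^ 2 := by
      linear_combination -β x * φ x ^ 2 * P.sq (ψ x - k)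
    linarith
  rw [H.int_add (by fun_prop) (by fun_prop)] at h4
  have h5 := mul_le_mul_of_nonneg_left h4 hl
  linarith

end Tri.Ok

/-- the invariant survives a cut along a tube -/
theorem cut : ∃ c₀ > 0, ∀ (X : Type) [TopologicalSpace X] [MeasurableSpace X] (T : Tri X)
    (ψ : X → ℝ) (B : Set (X → ℝ)) (τ m lam p A Λ : ℝ) (K : ℕ), T.Ok → T.Wt B → ψ ∈ T.S → 2 ≤ K →
    0 < τ → 0 ≤ lam → 0 < A → 0 ≤ Λ →
    (∀ x ∈ T.U, 1 / 2 ≤ ψ x → ψ x ≤ K → T.Γ ψ ψ x ≤ c₀ * T.R x ∧ |T.L ψ x| ≤ c₀ * T.R x) →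
    (∀ x ∈ T.U, 1 / 2 ≤ ψ x → ψ x ≤ 1 → T.R x ≤ Λ) → (∀ x ∈ T.U, 0 < ψ x → 0 ≤ T.R x) →
    T.Sob {x | 0 < ψ x} A 0 → lam + 8 ≤ -m - cS A → T.Inv τ m lam p B univ →
    T.Inv τ m lam (p + 7 * (p + lam + τ * Λ + 1) / 5 ^ K) B {x | ψ x ≤ K} := by
  obtain ⟨M, c, s, w, P⟩ := exists_prof
  have M1 := P.one
  refine ⟨1 / (1152 * M ^ 2), by positivity, ?_⟩
  intro X _ _ T ψ B τ m lam p A Λ K H hB hψ hK hτ hl hA hΛ hd hRΛ hR hS hm
    ⟨φ, hφ, _, h1, p', hp, h2⟩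
  let E : ℕ → ℝ := fun k =>
    ∫ x, w (ψ x - k) * (τ * (4 * T.Γ φ φ x + T.R x * φ x ^ 2) + 16 * φ x ^ 2) ∂T.μ
  have hE : ∀ k, 0 ≤ E k := fun k => H.int_nonneg fun x hx => by
    rcases le_or_gt (ψ x - k) 0 with h | h
    · rw [P.w0 _ h, zero_mul]
    · have := hR x hx (by linarith [Nat.cast_nonneg (α := ℝ) k])
      have := H.Γ_nonneg _ hφ x hx
      have := P.wn (ψ x - k)
      positivity
  obtain ⟨k, hk1, hk2, hk⟩ := geom_pick hE hK
  have c0 := H.cont _ hψ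
  have c1 := H.cont _ hφ
  have c5 := H.cont_v τ m hφ
  have hχ := H.shS P.hc hψ k
  have c2 := P.hc.continuous
  have a0 : 0 ≤ ∫ x, φ x ^ 2 ∂T.μ := H.int_nonneg fun _ _ => sq_nonneg _
  have h3 : E 1 / 2 ≤ ∫ x, max (T.v τ m φ x) 0 ∂T.μ + (τ * Λ + 1) := by
    have g := H.gain (k := 0) P hψ hφ hτ hA le_rfl hR hS hm h1.le
    have g1 : 0 ≤ lam * ∫ x, (s (ψ x - 0) * φ x) ^ 2 ∂T.μ :=
      mul_nonneg hl (H.int_nonneg fun _ _ => sq_nonneg _)
    have hη := H.shS P.hs hψ 0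
    have c3 := P.hs.continuous
    have c4 := H.cont _ (H.ΓS _ hψ _ hψ)
    have c7 := H.cont_ent hη
    have c8 : ContinuousOn (fun x => deriv s (ψ x - 0)) T.U :=
      (contDiff_infty_iff_deriv.1 P.hs).2.continuous.comp_continuousOn (c0.sub continuousOn_const)
    have g2 := g.trans (H.int_mono (h := fun x => max (T.v τ m φ x) 0 + (τ * Λ + 1) * φ x ^ 2)
      (by fun_prop) (by fun_prop) fun x hx => add_le_add
        (mul_le_of_le_one_left (le_max_right _ _)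
          (by nlinarith [P.sq (ψ x - 0), sq_nonneg (c (ψ x - 0))]))
        (mul_le_mul_of_nonneg_right (by
          by_cases hy : ψ x - 0 ∈ Icc (1 / 2 : ℝ) 1
          · have y1 : 1 / 2 ≤ ψ x := by simpa using hy.1
            have y2 : ψ x ≤ 1 := by simpa using hy.2
            have k2 : (2 : ℝ) ≤ K := by exact_mod_cast hK
            have d1 := (hd x hx y1 (by linarith)).1
            have b3 := abs_le.1 (P.bd (ψ x - 0)).2.2
            have d2 := mul_le_mul (sq_le_sq' b3.1 b3.2) d1 (H.Γ_nonneg _ hψ x hx) (sq_nonneg _)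
            rw [show M ^ 2 * (1 / (1152 * M ^ 2) * T.R x) = T.R x / 1152 by field_simp] at d2
            have := hRΛ x hx y1 y2
            have := neg_mul_log_le (sq_nonneg (s (ψ x - 0)))
            have := mul_le_mul_of_nonneg_left
              (show 4 * (deriv s (ψ x - 0) ^ 2 * T.Γ ψ ψ x) ≤ Λ by linarith) hτ.le
            linarith
          · rw [(P.off _ hy).2.2, (Tri.Ok.log01 P hy).2]
            simp only [ne_eq, OfNat.ofNat_ne_zero, not_false_eq_true, zero_pow, zero_mul, mul_zero,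
              sub_self]
            positivity) (sq_nonneg _)))
    rw [H.int_add (by fun_prop) (by fun_prop), integral_const_mul] at g2
    have g3 := mul_le_of_le_one_right (show 0 ≤ τ * Λ + 1 by positivity) h1.le
    simp only [E, Nat.cast_one]
    rw [zero_add] at g2
    linarith
  have h4 := h2 _ (mem_insert _ _)
  simp only [one_mul] at h4
  have h5 := mul_le_of_le_one_right hl h1.le
  have h6 : 25 / 8 * E 1 / 5 ^ K ≤ 7 * (p + lam + τ * Λ + 1) / 5 ^ K := by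
    have := hE 1
    gcongr ?_ / _
    linarith
  have k2 : (k : ℝ) + 1 ≤ K := by exact_mod_cast hk2
  refine ⟨_, H.mul hχ hφ, fun x _ hx => ?_, lt_of_le_of_lt (H.int_mono (by fun_prop) (by fun_prop)
    fun x _ => ?_) h1, p' + 7 * (p + lam + τ * Λ + 1) / 5 ^ K, by linarith, fun β hβ => ?_⟩
  · simp only [mem_ofPred_eq, not_le] at hx
    rw [P.c0 _ (by linarith), zero_mul]
  · rw [mul_pow]
    exact mul_le_of_le_one_left (sq_nonneg _)
      (by nlinarith [P.sq (ψ x - k), sq_nonneg (s (ψ x - k))])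
  · have hβ' : ContinuousOn β T.U ∧ ∀ x ∈ T.U, β x ≤ 1 := by
      rcases hβ with rfl | h
      exacts [⟨continuousOn_const, fun _ _ => le_rfl⟩, ⟨(hB β h).1, fun x hx => ((hB β h).2 x hx).2⟩]
    have h7 := H.step P hψ hφ hτ hA (Nat.cast_nonneg k) k2 hl hd hR hS hm h1.le hβ'.1 hβ'.2
    have h8 := h2 β hβ
    simp only [E, Nat.cast_add, Nat.cast_one] at hk h6
    linarith

end Vale.Agent.P216E
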