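import Vale.Agent.P216E.Loc
import Mathlib.Analysis.Calculus.Deriv.MeanValue
import Mathlib.Analysis.SpecialFunctions.Log.Deriv

/-! P216E: the invariant along a smooth Ricci flow -/

open MeasureTheory Set Filter
open scoped ContDiff Topology

namespace Vale.Agent.P216E

/-- a smooth convex approximation of the positive part -/
lemma exists_pos_part {δ : ℝ} (hδ : 0 < δ) : ∃ G : ℝ → ℝ, ContDiff ℝ ∞ G ∧ ∀ y, max y 0 ≤ G y ∧
    G y ≤ max y 0 + δ ∧ 0 ≤ deriv G y ∧ 0 ≤ deriv (deriv G) y := by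
  have hp : ∀ y : ℝ, 0 < y ^ 2 + δ ^ 2 := fun y => by positivity
  have hs : ∀ y : ℝ, 0 < √(y ^ 2 + δ ^ 2) := fun y => Real.sqrt_pos.2 (hp y)
  have h2 : ∀ y : ℝ, √(y ^ 2 + δ ^ 2) ^ 2 = y ^ 2 + δ ^ 2 := fun y => Real.sq_sqrt (hp y).le
  have h3 : ∀ y : ℝ, |y| ≤ √(y ^ 2 + δ ^ 2) := fun y => Real.abs_le_sqrt (by nlinarith)
  have d0 : ∀ y : ℝ, HasDerivAt (fun y : ℝ => √(y ^ 2 + δ ^ 2)) (y / √(y ^ 2 + δ ^ 2)) y :=
    fun y => by
      have := (((hasDerivAt_pow 2 y).add_const (δ ^ 2)).sqrt (hp y).ne')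
      refine this.congr_deriv ?_
      have := hs y
      norm_num
      field_simp
  have d1 : deriv (fun y : ℝ => (y + √(y ^ 2 + δ ^ 2)) / 2) =
      fun y => (1 + y / √(y ^ 2 + δ ^ 2)) / 2 :=
    funext fun y => (((hasDerivAt_id' y).fun_add (d0 y)).div_const 2).deriv
  refine ⟨fun y => (y + √(y ^ 2 + δ ^ 2)) / 2, (contDiff_id.add (ContDiff.sqrt (by fun_prop)
    fun y => (hp y).ne')).div_const 2, fun y => ⟨?_, ?_, ?_, ?_⟩⟩
  · have := abs_le.1 (h3 y)
    exact max_le (by linarith) (by linarith)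
  · have : √(y ^ 2 + δ ^ 2) ≤ |y| + δ :=
      Real.sqrt_le_iff.2 ⟨by positivity, by nlinarith [abs_nonneg y, sq_abs y]⟩
    rcases le_total 0 y with h | h
    · rw [abs_of_nonneg h] at this; rw [max_eq_left h]; linarith
    · rw [abs_of_nonpos h] at this; rw [max_eq_right h]; linarith
  · rw [d1]
    have : -1 ≤ y / √(y ^ 2 + δ ^ 2) := by
      rw [le_div_iff₀ (hs y)]; linarith [(abs_le.1 (h3 y)).1]
    show 0 ≤ (1 + y / √(y ^ 2 + δ ^ 2)) / 2
    linarith
  · rw [d1, ((((hasDerivAt_id' y).fun_div (d0 y) (hs y).ne').const_add 1).div_const 2).deriv]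
    have e := h2 y
    have e0 := hs y
    set s := √(y ^ 2 + δ ^ 2)
    rw [show 1 * s - y * (y / s) = (s ^ 2 - y ^ 2) / s by field_simp, e, add_sub_cancel_left]
    positivity

lemma cd_log {r : ℝ} (hr : 0 < r) : ContDiffAt ℝ ∞ Real.log r := Real.contDiffAt_log.2 hr.ne'

variable {X : Type*} [TopologicalSpace X] [MeasurableSpace X]

namespace Tri.Ok

variable {T : Tri X} (H : T.Ok) {φ u k : X → ℝ} {x : X} {τ m ε : ℝ}
include H

lemma Γ_log (hu : u ∈ T.S) (h0 : ∀ x ∈ T.U, 0 < u x) (hk : k ∈ T.S) (hx : x ∈ T.U) :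
    T.Γ (fun y => Real.log (u y)) k x = (u x)⁻¹ * T.Γ u k x := by
  rw [H.Γ_comp _ hu _ (fun x hx => cd_log (h0 x hx)) _ hk x hx, Real.deriv_log]

lemma L_log (hu : u ∈ T.S) (h0 : ∀ x ∈ T.U, 0 < u x) (hx : x ∈ T.U) :
    T.L (fun y => Real.log (u y)) x +
      T.Γ (fun y => Real.log (u y)) (fun y => Real.log (u y)) x = (u x)⁻¹ * T.L u x ∧
    T.Γ (fun y => Real.log (u y)) (fun y => Real.log (u y)) x = (u x)⁻¹ ^ 2 * T.Γ u u x := by
  have hl := H.comp _ hu _ fun x hx => cd_log (h0 x hx)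
  rw [H.Γ_log hu h0 hl hx, H.Γ_comm _ hu _ hl x hx, H.Γ_log hu h0 hu hx,
    H.L_comp _ hu _ (fun x hx => cd_log (h0 x hx)) x hx, Real.deriv_log', deriv_inv']
  constructor <;> ring

/-- the entropy density in terms of the logarithm -/
lemma v_log (hφ : φ ∈ T.S) (hu : u ∈ T.S) (h0 : ∀ x ∈ T.U, 0 < u x)
    (he : EqOn u (fun x => φ x ^ 2 + ε) T.U) (hx : x ∈ T.U) (τ : ℝ) :
    (τ * (-2 * T.L (fun y => Real.log (u y)) x
      - T.Γ (fun y => Real.log (u y)) (fun y => Real.log (u y)) x + T.R x)) * u x =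
    τ * (-4 * φ x * T.L φ x + T.R x * u x - 4 * ε * T.Γ φ φ x / u x) := by
  obtain ⟨h1, h2⟩ := H.L_log hu h0 hx
  have h3 : T.L u x = 2 * φ x * T.L φ x + 2 * T.Γ φ φ x := by
    rw [H.L_congr _ _ he hx, H.L_add _ (H.pow 2 hφ) _ (H.const ε) x hx, H.L_const _ hx,
      H.L_sq hφ hx, add_zero]
  have h4 : ∀ k ∈ T.S, T.Γ u k x = 2 * φ x * T.Γ φ k x := fun k hk => by
    rw [H.Γ_congr _ _ k he hx, H.Γ_add _ (H.pow 2 hφ) _ (H.const ε) k hk x hx,
      H.Γ_const _ hk hx, H.Γ_sq hφ hk hx, add_zero]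
  rw [h4 u hu, H.Γ_comm _ hφ _ hu x hx, h4 φ hφ] at h2
  have h5 : φ x ^ 2 = u x - ε := by rw [he hx]; ring
  have h6 := (h0 x hx).ne'
  rw [eq_sub_of_add_eq h1, h2, h3]
  field_simp
  rw [h5]
  ring

end Tri.Ok

namespace Flo.Ok

variable {F : Flo X} (H : F.Ok) {w z u : ℝ → X → ℝ}
include H

lemma smul (c : ℝ) (hw : w ∈ F.ST) : (fun t x => c * w t x) ∈ F.ST :=
  H.comp _ hw (fun r => c * r) fun _ _ _ _ => by fun_prop

lemma mul (hw : w ∈ F.ST) (hz : z ∈ F.ST) : (fun t x => w t x * z t x) ∈ F.ST := by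
  have e : (fun t x => w t x * z t x) = fun t x =>
      1 / 4 * (w t x + z t x) ^ 2 + -1 / 4 * (w t x + -1 * z t x) ^ 2 := by
    funext t x; ring
  have sq : ∀ w ∈ F.ST, (fun t x => w t x ^ 2) ∈ F.ST := fun w hw =>
    H.comp _ hw (fun r => r ^ 2) fun _ _ _ _ => by fun_prop
  rw [e]
  exact H.add _ (H.smul _ (sq _ (H.add _ hw _ hz))) _
    (H.smul _ (sq _ (H.add _ hw _ (H.smul _ hz))))

lemma sub (hw : w ∈ F.ST) (hz : z ∈ F.ST) : (fun t x => w t x - z t x) ∈ F.ST := by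
  simpa [sub_eq_add_neg] using H.add _ hw _ (H.smul (-1) hz)

lemma int_le (hw : w ∈ F.ST)
    (h : ∀ t ∈ Ioo F.a F.b, 0 ≤ ∫ x, (deriv (fun s => w s x) t - F.P t x * w t x) ∂F.μ t) :
    ∫ x, w F.a x ∂F.μ F.a ≤ ∫ x, w F.b x ∂F.μ F.b :=
  monotoneOn_of_deriv_nonneg (convex_Icc F.a F.b) (H.cint w hw)
    (fun t ht => (H.dint w hw t (by simpa using ht)).differentiableAt.differentiableWithinAt)
    (fun t ht => by
      rw [interior_Icc] at ht
      rw [(H.dint w hw t ht).deriv]; exact h t ht)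
    (left_mem_Icc.2 H.hab) (right_mem_Icc.2 H.hab) H.hab

/-- pairing a subsolution of the heat equation with a conjugate solution -/
lemma pair (hP : F.P = F.R) (hw : w ∈ F.ST) (hu : F.IsConj u) (c : ℝ)
    (h : ∀ t ∈ Ioo F.a F.b, ∀ x ∈ F.U, 0 ≤ c * (deriv (fun s => w s x) t - F.L t (w t) x)) :
    c * ∫ x, w F.a x * u F.a x ∂F.μ F.a ≤ c * ∫ x, w F.b x * u F.b x ∂F.μ F.b := by
  rw [← integral_const_mul, ← integral_const_mul]
  refine H.int_le (H.smul c (H.mul hw hu.1)) fun t ht => ?_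
  have ht' := Ioo_subset_Icc_self ht
  have T := H.ok t ht'
  have s1 := H.slice _ hw t ht'
  have s2 := H.slice _ hu.1 t ht'
  have c1 := T.cont _ s1
  have c2 := T.cont _ s2
  have c3 := T.cont _ (T.LS _ s1)
  have c4 := T.cont _ (T.LS _ s2)
  have c5 := T.cont _ (H.dS _ hw t ht)
  have g1 := T.green _ s1 _ s2
  have g2 := T.green _ s2 _ s1
  rw [T.int_congr (f := F.Γ t (u t) (w t)) fun x hx => T.Γ_comm _ s2 _ s1 x hx] at g2
  rw [T.int_congr (h := fun x => c * (deriv (fun s => w s x) t - F.L t (w t) x) * u t x +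
    c * (u t x * F.L t (w t) x - w t x * F.L t (u t) x)) fun x hx => by
      rw [(((H.diff _ hw t ht x hx).hasDerivAt.fun_mul
        (H.diff _ hu.1 t ht x hx).hasDerivAt).const_mul c).deriv, hu.2.2 t ht x hx, hP]
      ring,
    T.int_add (by fun_prop) (by fun_prop), integral_const_mul,
    T.int_sub (by fun_prop) (by fun_prop), g1, g2, sub_self, mul_zero, add_zero]
  exact T.int_nonneg fun x hx => mul_nonneg (h t ht x hx) (hu.2.1 t ht' x hx).le

lemma sub_of_heat (hP : F.P = F.R) {Ba Bb : Set (X → ℝ)}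
    (h : ∀ α ∈ Ba, ∃ w ∈ F.ST, w F.a = α ∧ w F.b ∈ Bb ∧
      ∀ t ∈ Ioo F.a F.b, ∀ x ∈ F.U, deriv (fun s => w s x) t ≤ F.L t (w t) x) : F.Sub Ba Bb := by
  intro α hα
  obtain ⟨w, hw, rfl, h1, h2⟩ := h α hα
  refine ⟨_, h1, fun u hu => ?_⟩
  have := H.pair hP hw hu (-1) fun t ht x hx => by linarith [h2 t ht x hx]
  linarith

lemma mass (hP : F.P = F.R) (hu : F.IsConj u) :
    ∫ x, u F.a x ∂F.μ F.a = ∫ x, u F.b x ∂F.μ F.b := by
  have key := fun c => H.pair hP (H.stat _ ((H.ok _ (left_mem_Icc.2 H.hab)).const 1)) hu c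
    fun t ht x hx => by
      rw [show F.L t (fun _ => 1) x = 0 from (H.ok t (Ioo_subset_Icc_self ht)).L_const 1 hx]; simp
  have h1 := key 1
  have h2 := key (-1)
  simp only [one_mul] at h1 h2
  linarith

/-- monotonicity of convex functions of the entropy density -/
lemma ent_mono (hP : F.P = F.R) (hPer : F.Per) (hu : F.IsConj u) {c : ℝ} (hc : F.b < c) (m : ℝ)
    {G : ℝ → ℝ} (hG : ContDiff ℝ ∞ G) (h1 : ∀ y, 0 ≤ deriv G y) (h2 : ∀ y, 0 ≤ deriv (deriv G) y) :
    ∫ x, G (F.y c (fun t x => Real.log (u t x)) F.a x -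
        (3 / 2 * Real.log (4 * Real.pi * (c - F.a)) + 3 + m)) * u F.a x ∂F.μ F.a ≤
    ∫ x, G (F.y c (fun t x => Real.log (u t x)) F.b x -
        (3 / 2 * Real.log (4 * Real.pi * (c - F.b)) + 3 + m)) * u F.b x ∂F.μ F.b := by
  set l : ℝ → X → ℝ := fun t x => Real.log (u t x) with hldef
  have hl : l ∈ F.ST := H.comp _ hu.1 _ fun t ht x hx => cd_log (hu.2.1 t ht x hx)
  have hy : F.y c l ∈ F.ST := H.sub (H.mul (H.comp _ H.time (fun r => c - r) fun _ _ _ _ => by
    fun_prop) (H.add _ (H.sub (H.smul _ (H.LST _ hl)) (H.ΓST _ hl _ hl)) _ H.RST)) hl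
  have hπ := Real.pi_pos
  have hpos : ∀ t ∈ Icc F.a F.b, 0 < 4 * Real.pi * (c - t) := fun t ht =>
    mul_pos (by positivity) (by linarith [ht.2])
  have hY := H.sub hy (H.comp _ H.time (fun r => 3 / 2 * Real.log (4 * Real.pi * (c - r)) + 3 + m)
    fun t ht _ _ => ((contDiffAt_const.mul ((cd_log (hpos t ht)).comp t
      (f := fun r => 4 * Real.pi * (c - r)) (by fun_prop))).add
        contDiffAt_const).add contDiffAt_const)
  have hGY := H.comp _ hY G fun _ _ _ _ => hG.contDiffAt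
  have hper := hPer l hl (fun t ht x hx => by
    have ht' := Ioo_subset_Icc_self ht
    have e := ((H.ok t ht').L_log (H.slice _ hu.1 t ht') (hu.2.1 t ht') hx).1
    have h0 := (hu.2.1 t ht' x hx).ne'
    rw [((H.diff _ hu.1 t ht x hx).hasDerivAt.log h0).deriv, hu.2.2 t ht x hx]
    have e' : F.L t (l t) x + F.Γ t (l t) (l t) x = (u t x)⁻¹ * F.L t (u t) x := e
    rw [show -F.L t (l t) x - F.Γ t (l t) (l t) x = -((u t x)⁻¹ * F.L t (u t) x) by linarith]
    field_simp) c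
  refine H.int_le (H.mul hGY hu.1) fun t ht => ?_
  have ht' := Ioo_subset_Icc_self ht
  have T := H.ok t ht'
  have s0 := H.slice _ hy t ht'
  have s1 := H.slice _ hY t ht'
  have s2 := H.slice _ hu.1 t ht'
  have s3 := H.slice _ hGY t ht'
  have s4 := T.mul s3 s2
  have s5 := H.slice _ hl t ht'
  have z := T.int_L (T.smul (-1) s4)
  rw [← z]
  refine T.int_mono (T.cont _ (T.LS _ (T.smul (-1) s4)))
    (T.cont _ (T.sub (H.dS _ (H.mul hGY hu.1) t ht) (T.mul (H.slice _ H.PST t ht') s4)))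
    fun x hx => ?_
  have ct : 0 < c - t := by linarith [ht.2]
  have d1 : HasDerivAt (fun r => 3 / 2 * Real.log (4 * Real.pi * (c - r)) + 3 + m)
      (-(3 / 2) / (c - t)) t := by
    have := (((((hasDerivAt_id' t).const_sub c).const_mul (4 * Real.pi)).log
      (hpos t ht').ne').const_mul (3 / 2)).add_const (3 + m)
    simp only [← add_assoc] at this
    refine this.congr_deriv ?_
    field_simp
  have d2 := (H.diff _ hy t ht x hx).hasDerivAt.fun_sub d1
  have d3 := ((hG.differentiable (by simp) _).hasDerivAt.comp t d2).fun_mul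
    (H.diff _ hu.1 t ht x hx).hasDerivAt
  have e1 := hper t ht x hx
  have e2 := T.Γ_log s2 (hu.2.1 t ht') s0 hx
  have e3 : ∀ k ∈ F.S, F.Γ t (fun x => F.y c l t x -
      (3 / 2 * Real.log (4 * Real.pi * (c - t)) + 3 + m)) k x = F.Γ t (F.y c l t) k x :=
    fun k hk => by
      have := T.Γ_add _ s0 _ (T.const (-(3 / 2 * Real.log (4 * Real.pi * (c - t)) + 3 + m))) k hk x hx
      rw [T.Γ_const _ hk hx, add_zero] at this
      simpa only [sub_eq_add_neg] using this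
  have e4 : F.L t (fun x => F.y c l t x -
      (3 / 2 * Real.log (4 * Real.pi * (c - t)) + 3 + m)) x = F.L t (F.y c l t) x := by
    have := T.L_add _ s0 _ (T.const (-(3 / 2 * Real.log (4 * Real.pi * (c - t)) + 3 + m))) x hx
    rw [T.L_const _ hx, add_zero] at this
    simpa only [sub_eq_add_neg] using this
  have e5 := T.Γ_nonneg _ s1 x hx
  have u0 := hu.2.1 t ht' x hx
  have e6 : 0 ≤ deriv (fun s => F.y c l s x) t - -(3 / 2) / (c - t) + F.L t (F.y c l t) x
      + 2 * F.Γ t (l t) (F.y c l t) x := by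
    refine nonneg_of_mul_nonneg_right (a := c - t) ?_ ct
    have : (c - t) * (-(3 / 2) / (c - t)) = -(3 / 2) := by field_simp
    nlinarith
  have e7 : F.Γ t (F.y c l t) (u t) x = u t x * F.Γ t (l t) (F.y c l t) x := by
    have e8 : F.Γ t (l t) (F.y c l t) x = (u t x)⁻¹ * F.Γ t (u t) (F.y c l t) x := e2
    rw [e8, show F.Γ t (F.y c l t) (u t) x = F.Γ t (u t) (F.y c l t) x from
      T.Γ_comm _ s0 _ s2 x hx]
    field_simp
  have f1 := T.L_smul (-1) s4 hx
  have f2 := T.L_mul s3 s2 hx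
  have f3 := T.L_comp _ s1 G (fun _ _ => hG.contDiffAt) x hx
  have f4 := T.Γ_comp _ s1 G (fun _ _ => hG.contDiffAt) _ s2 x hx
  simp only [] at f1 f2 f3 f4 e5 ⊢
  rw [e3 _ s2, e7] at f4
  rw [e4] at f3
  rw [show deriv (fun s => G (F.y c l s x - (3 / 2 * Real.log (4 * Real.pi * (c - s)) + 3 + m)) *
    u s x) t = _ from d3.deriv, f1, f2, f3, f4, hu.2.2 t ht x hx, hP]
  have g1 := mul_nonneg (mul_nonneg (h1 (F.y c l t x -
    (3 / 2 * Real.log (4 * Real.pi * (c - t)) + 3 + m))) u0.le) e6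
  have g2 := mul_nonneg (mul_nonneg (h2 (F.y c l t x -
    (3 / 2 * Real.log (4 * Real.pi * (c - t)) + 3 + m))) u0.le) e5
  simp only [Function.comp]
  linarith

/-- the invariant goes backward along a smooth flow -/
theorem stage (hP : F.P = F.R) (hC : F.Conj) (hPer : F.Per) {τ m lam p : ℝ} {Ba Bb : Set (X → ℝ)}
    {C : Set X} (hτ : 0 < τ) (hl : 0 ≤ lam) (hB : (F.T F.b).Wt Bb) (hS : F.Sub Ba Bb)
    (hI : (F.T F.b).Inv τ m lam p Bb C) : (F.T F.a).Inv (τ + (F.b - F.a)) m lam p Ba univ := by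
  obtain ⟨φ, hφ, -, h1, p', hp, h2⟩ := hI
  have ha := left_mem_Icc.2 H.hab
  have hb := right_mem_Icc.2 H.hab
  have A := H.ok _ ha
  have T := H.ok _ hb
  set κ := 3 / 2 * Real.log (4 * Real.pi * τ) + 3 + m with hκ
  set V := ∫ _x, (1 : ℝ) ∂F.μ F.b
  set I := ∫ x, |τ * F.R F.b x - κ| ∂F.μ F.b
  set a := ∫ x, φ x ^ 2 ∂F.μ F.b
  have t1 : ContinuousAt (fun ε : ℝ => ε * I + Real.negMulLog ε * V + ε * (a + ε * V)) 0 := by
    have := Real.continuous_negMulLog
    fun_prop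
  have t2 : ContinuousAt (fun ε : ℝ => a + ε * V) 0 := by fun_prop
  obtain ⟨ε, ⟨⟨k1, k2⟩, k3⟩, hε⟩ := ((((t1.eventually_lt (g := fun _ => p - p') continuousAt_const
    (by simpa using hp)).and (t2.eventually_lt (g := fun _ => 1) continuousAt_const
    (by simpa using h1))).and (Iio_mem_nhds one_pos)).filter_mono nhdsWithin_le_nhds).and
    (self_mem_nhdsWithin (s := Ioi (0 : ℝ))) |>.exists
  have hε : 0 < ε := hε
  obtain ⟨u, hu, he⟩ := hC _ (T.add _ (T.pow 2 hφ) _ (T.const ε)) fun x _ => by positivity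
  obtain ⟨G, hG, hG'⟩ := exists_pos_part hε
  have h3 := H.ent_mono hP hPer hu (c := τ + F.b) (by linarith) m hG (fun y => (hG' y).2.2.1)
    fun y => (hG' y).2.2.2
  have sa := H.slice _ hu.1 _ ha
  have sb := H.slice _ hu.1 _ hb
  have hψ := A.comp _ sa Real.sqrt fun x hx => Real.contDiffAt_sqrt (hu.2.1 _ ha x hx).ne'
  have e0 : ∀ x ∈ F.U, √(u F.a x) ^ 2 = u F.a x := fun x hx => Real.sq_sqrt (hu.2.1 _ ha x hx).le
  have c1 := T.cont _ hφ
  have c2 := T.cont _ T.RS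
  have c3 := T.cont_v τ m hφ
  have m1 : ∫ x, u F.b x ∂F.μ F.b = a + ε * V := by
    rw [T.int_congr he, T.int_add (by fun_prop) (by fun_prop), ← integral_const_mul]; simp [a]
  have cY : ∀ t ∈ Icc F.a F.b, ∀ k : ℝ, ContinuousOn (fun x =>
      G (F.y (τ + F.b) (fun t x => Real.log (u t x)) t x - k) * u t x) F.U := fun t ht k => by
    have S := H.ok t ht
    have s := H.slice _ hu.1 _ ht
    have sl := S.comp _ s _ fun x hx => cd_log (hu.2.1 _ ht x hx)
    have := hG.continuous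
    have := S.cont _ s
    have := S.cont _ sl
    have := S.cont _ (S.LS _ sl)
    have := S.cont _ (S.ΓS _ sl _ sl)
    have := S.cont _ S.RS
    exact (hG.continuous.comp_continuousOn ((S.cont _ (S.sub (S.smul _ (S.add _ (S.sub
      (S.smul _ (S.LS _ sl)) (S.ΓS _ sl _ sl)) _ S.RS)) sl)).sub continuousOn_const)).mul
      (S.cont _ s)
  have h4 : ∫ x, max ((F.T F.a).v (τ + (F.b - F.a)) m (fun x => √(u F.a x)) x) 0 ∂F.μ F.a ≤ _ :=
    le_trans (A.int_mono (by have := A.cont_v (τ + (F.b - F.a)) m hψ; fun_prop) (cY _ ha _) fun x hx => by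
      have e := A.v_log (ε := 0) hψ sa (hu.2.1 _ ha) (fun x hx => by simp [e0 x hx]) hx
        (τ + F.b - F.a)
      have u0 := hu.2.1 _ ha x hx
      refine le_trans (le_of_eq ?_) (mul_le_mul_of_nonneg_right (hG' _).1 u0.le)
      rw [max_mul_of_nonneg _ _ u0.le, zero_mul, Flo.y, sub_mul, sub_mul]
      simp only [] at e
      rw [e, Tri.v, e0 x hx, add_sub_assoc]
      congr 1
      ring) h3
  have h5 : _ ≤ ∫ x, (max ((F.T F.b).v τ m φ x) 0 + (ε * |τ * F.R F.b x - κ| +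
      Real.negMulLog ε * 1 + ε * u F.b x)) ∂F.μ F.b :=
    h4.trans (T.int_mono (cY _ hb _) (by have := T.cont _ sb; fun_prop) fun x hx => by
      have e := T.v_log hφ sb (hu.2.1 _ hb) he hx (τ + F.b - F.b)
      have u0 := hu.2.1 _ hb x hx
      refine (mul_le_mul_of_nonneg_right (hG' _).2.1 u0.le).trans ?_
      rw [add_mul, max_mul_of_nonneg _ _ u0.le, zero_mul, Flo.y, sub_mul, sub_mul]
      simp only [] at e
      rw [e, add_sub_cancel_right, ← hκ]
      have n1 : 0 ≤ Real.negMulLog ε := Real.negMulLog_nonneg hε.le (le_of_lt k3)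
      have n2 := mul_le_mul_of_nonneg_left (le_abs_self (τ * F.R F.b x - κ)) hε.le
      have n3 : 0 ≤ ε * |τ * F.R F.b x - κ| := by positivity
      have n4 : 0 ≤ τ * (4 * ε * F.Γ F.b φ φ x / u F.b x) := by
        have := T.Γ_nonneg _ hφ x hx
        positivity
      have n5 : ε * Real.log ε ≤ ε * Real.log (u F.b x) := mul_le_mul_of_nonneg_left
        (Real.log_le_log hε (by rw [he hx]; nlinarith [sq_nonneg (φ x)])) hε.le
      have n6 : φ x ^ 2 * Real.log (φ x ^ 2) ≤ φ x ^ 2 * Real.log (u F.b x) := by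
        rcases eq_or_ne (φ x) 0 with h | h
        · simp [h]
        · exact mul_le_mul_of_nonneg_left (Real.log_le_log (by positivity)
            (by rw [he hx]; linarith)) (sq_nonneg _)
      have n7 : τ * (-4 * φ x * F.L F.b φ x + F.R F.b x * φ x ^ 2) - φ x ^ 2 * Real.log (φ x ^ 2)
        - κ * φ x ^ 2 ≤ _ := le_max_left ((F.T F.b).v τ m φ x) 0
      have n8 := le_max_right ((F.T F.b).v τ m φ x) 0
      have n9 : u F.b x = φ x ^ 2 + ε := he hx
      rw [← le_sub_iff_add_le]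
      refine max_le ?_ (by linarith)
      rw [Real.negMulLog]
      generalize Real.log (u F.b x) = L at *
      generalize 4 * ε * F.Γ F.b φ φ x / u F.b x = Z at *
      rw [n9]
      linarith)
  have cb := T.cont _ sb
  rw [T.int_add (by fun_prop) (by fun_prop), T.int_add (by fun_prop) (by fun_prop),
    T.int_add (by fun_prop) (by fun_prop), integral_const_mul, integral_const_mul,
    integral_const_mul] at h5
  have m2 := H.mass hP hu
  have m3 : ∀ β : X → ℝ, ∫ x, β x * √(u F.a x) ^ 2 ∂F.μ F.a = ∫ x, β x * u F.a x ∂F.μ F.a :=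
    fun β => A.int_congr fun x hx => by rw [e0 x hx]
  refine ⟨_, hψ, by simp, ?_, p' + (ε * I + Real.negMulLog ε * V + ε * (a + ε * V)), by linarith,
    fun α hα => ?_⟩
  · exact lt_of_eq_of_lt ((A.int_congr e0).trans (m2.trans m1)) k2
  obtain ⟨β, hβ, h6⟩ : ∃ β ∈ insert (fun _ => (1 : ℝ)) Bb,
      ∫ x, β x * φ x ^ 2 ∂F.μ F.b ≤ ∫ x, α x * u F.a x ∂F.μ F.a := by
    rcases hα with rfl | hα
    · refine ⟨_, mem_insert _ _, ?_⟩
      simp only [one_mul]
      rw [m2]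
      exact T.int_mono (by fun_prop) cb fun x hx => by rw [he hx]; linarith
    · obtain ⟨β, hβ, h7⟩ := hS α hα
      have := (hB β hβ).1
      exact ⟨β, mem_insert_of_mem _ hβ, le_trans (T.int_mono (by fun_prop) (by fun_prop)
        fun x hx => mul_le_mul_of_nonneg_left (by rw [he hx]; linarith) ((hB β hβ).2 x hx).1)
        (h7 u hu)⟩
  have h7 := h2 β hβ
  have h8 := mul_le_mul_of_nonneg_left h6 hl
  have h9 := m3 α
  simp only [] at h5 h7 ⊢
  rw [h9, ← m1]
  linarith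

end Flo.Ok

end Vale.Agent.P216E
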