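import Vale.Agent.P216E.Tb
import Vale.Agent.P216E.Cut
import Vale.Agent.P216E.Stage
import Vale.Agent.P216BG.Init
import Vale.Agent.P216EO.Tok
import Vale.Agent.P216EF.Ok
import Vale.Agent.P216EI.Per
import Vale.Agent.P216ST.Heat
import Vale.Agent.P216LS.Smooth
import Vale.Agent.P216LS.Sob
import Vale.Agent.P216HV.Hv
import Vale.Agent.P216FB.Sm

/-! P216E: no collapsing for flows with surgery -/

open scoped Manifold ContDiff Topology ENNReal
open Set MeasureTheory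

noncomputable section

namespace Vale.Agent.P216E

open Vale.Agent.P216R Vale.Agent.P216LS Vale.Agent.P216DC Vale.Agent.P216ST
open Vale.Agent.P216FB (Ht sf_slice s0_cont NCM)

lemma doubling {f : ℝ → ℝ} {κ s₀ ρ : ℝ} (hκ0 : 0 ≤ κ) (hκ : κ ≤ 4) (hs : 0 < s₀)
    (h0 : ∀ s ≤ s₀, 4 * s ^ 3 ≤ f s)
    (h1 : ∀ r ∈ Ioc 0 ρ, f r ≤ 100 * f (r / 2) → κ * r ^ 3 ≤ f r) :
    ∀ r ∈ Ioc 0 ρ, κ * r ^ 3 ≤ f r := by
  have key : ∀ n : ℕ, ∀ r ∈ Ioc 0 ρ, r ≤ 2 ^ n * s₀ → κ * r ^ 3 ≤ f r := by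
    intro n
    induction n with
    | zero =>
      intro r hr h
      refine le_trans ?_ (h0 r (by simpa using h))
      have := hr.1
      gcongr
    | succ n ih =>
      intro r hr h
      by_cases k : f r ≤ 100 * f (r / 2)
      · exact h1 r hr k
      · have := ih (r / 2) ⟨half_pos hr.1, by linarith [hr.1, hr.2]⟩
          (by rw [pow_succ] at h; linarith)
        have h3 : 0 ≤ κ * r ^ 3 := by have := hr.1; positivity
        nlinarith
  intro r hr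
  obtain ⟨n, hn⟩ := pow_unbounded_of_one_lt (r / s₀) (one_lt_two (α := ℝ))
  exact key n r hr ((div_le_iff₀ hs).1 hn.le)

lemma log_sc {r : ℝ} (c : ℝ) (hc : 0 < c) (hr : 0 < r) :
    3 / 2 * Real.log (c * r ^ 2) = 3 / 2 * Real.log c + Real.log (r ^ 3) := by
  rw [Real.log_mul hc.ne' (by positivity), Real.log_pow, Real.log_pow]
  push_cast
  ring

/-- a collapsed ball starts the invariant -/
theorem nc_of : ∃ b : ℝ, ∀ (M : Type) [TopologicalSpace M] [ChartedSpace E3 M]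
    [IsManifold 𝓘(ℝ, E3) ∞ M] [MeasurableSpace M] [BorelSpace M] (g : Ten E3 M) (U : Set M)
    (y : M) (ρ m lam mA : ℝ) (B : Set (M → ℝ)), Met g U → IsCompact U → Hs U → y ∈ U → 0 < ρ →
    m ≤ 0 → 0 ≤ lam → 0 ≤ mA → mA ≤ 1 → (tri g U).Wt B → (∀ β ∈ B, ∀ z ∈ bl g U y ρ, mA ≤ β z) →
    (∀ r ∈ Ioc 0 ρ, ¬(tri g U).Inv (r ^ 2) m lam (b - lam * mA / (8 * 100)) B univ) →
    NC (Real.exp m / 4) g U y ρ := by
  obtain ⟨b, hb⟩ := P216BG.init 100 (by norm_num)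
  refine ⟨b, ?_⟩
  intro M _ _ _ _ _ g U y ρ m lam mA B hg hc hH hy hρ hm hl a0 a1 hB hβ hI hR
  have fin : ∀ r, vol g (bl g U y r) ≠ ⊤ := fun r =>
    ((measure_mono bl_subset).trans_lt (vol_lt_top hg hc Subset.rfl)).ne
  have ms : ∀ r, MeasurableSet (bl g U y r) := fun r => (hg.isOpen_bl y r).measurableSet
  have e : ∀ r, (tri g U).μ.real (bl g U y r) = (vol g (bl g U y r)).toReal := fun r => by
    rw [Measure.real, Measure.restrict_apply (ms r), inter_eq_left.2 bl_subset]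
  obtain ⟨s₀, hs, h0⟩ := P216HV.ball_ge3 (isVol_vol g) hg hc Subset.rfl
  refine (ENNReal.ofReal_le_iff_le_toReal (fin ρ)).2 (doubling
    (f := fun r => (vol g (bl g U y r)).toReal) (ρ := ρ) (by positivity)
    (by linarith [Real.exp_le_one_iff.2 hm]) hs
    (fun s h => (ENNReal.ofReal_le_iff_le_toReal (fin s)).1 (h0 y hy s h)) (fun r hr h => ?_) ρ
    ⟨hρ, le_rfl⟩)
  by_contra hlt
  have r0 := hr.1
  obtain ⟨w, w1, w2⟩ := cutoff hg hc hH y r0
  refine hI r hr (hb M (tri g U) w B (bl g U y (r / 2)) (bl g U y r) (r ^ 2) m lam mA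
    (P216EO.tri_ok hg hc hH) (P216EF.theat E3 (heat E3) (P216EO.tok E3) M g U hg hc hH) hB w1
    (ms _) (ms _) (by positivity) hl a0 a1 (bl_mono (half_le_self r0.le)) bl_subset
    (fun x hx => (w2 x (bl_subset hx)).2.1 hx) (fun x hx k => (w2 x hx).2.2.1 k)
    (fun x hx => (w2 x hx).1) (fun x hx => ?_) (fun x hx => ?_) ?_ ?_
    (fun β hβ' x hx => hβ β hβ' x (bl_mono (by linarith [hr.2]) hx)) ?_)
  · have := (le_div_iff₀ (by positivity)).1 (w2 x hx).2.2.2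
    rwa [mul_comm] at this
  · have h1 : Sc g x ≤ 1 / r ^ 2 := (hR x (bl_mono hr.2 hx)).trans (by gcongr; exact hr.2)
    have := (le_div_iff₀ (by positivity)).1 h1
    rwa [mul_comm] at this
  · rw [e]
    exact ENNReal.toReal_pos (vol_pos hg hy (hg.bl_mem_nhds hy r0)).ne' (fin r)
  · rw [e, e]
    exact h
  · have h1 : 0 ≤ Real.log (4 * Real.pi) := Real.log_nonneg (by linarith [Real.pi_gt_three])
    rw [e, log_sc _ (by positivity) r0]
    refine le_trans ?_ (Real.exp_le_exp.2 (show Real.log (r ^ 3) + m ≤ _ by linarith))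
    rw [Real.exp_add, Real.exp_log (by positivity)]
    linarith [not_le.1 hlt]

section

variable {M : Type} [TopologicalSpace M] [ChartedSpace E3 M] [IsManifold 𝓘(ℝ, E3) ∞ M]
  [MeasurableSpace M] [BorelSpace M] {g : ℝ → Ten E3 M} {b d : M → ℝ} {T s₁ T' s : ℝ} {W : Set M}

omit [TopologicalSpace M] [ChartedSpace E3 M] [IsManifold 𝓘(ℝ, E3) ∞ M] [MeasurableSpace M]
  [BorelSpace M] in
lemma sl_up (h : Sl b d s₁ T' W s) (h0 : 0 ≤ s₁) (hT : T' ≤ T) : Sl b d 0 T W s :=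
  (h.mono hT).imp (fun k => ⟨⟨h0.trans_lt k.1.1, k.1.2⟩, k.2⟩) fun k =>
    ⟨⟨h0.trans k.1.1, k.1.2⟩, k.2⟩

omit [TopologicalSpace M] [ChartedSpace E3 M] [IsManifold 𝓘(ℝ, E3) ∞ M] [MeasurableSpace M]
  [BorelSpace M] in
lemma sl_liv (h : Sl b d s₁ T' W s) (hf : (range b ∪ range d).Finite) :
    ∃ a c, s₁ ≤ a ∧ a < c ∧ c ≤ T' ∧ s ∈ Icc a c ∧ Gap b d a c ∧ W = Liv b d a c := by
  rcases h with ⟨ht, rfl⟩ | ⟨ht, rfl⟩
  · obtain ⟨a, ha, hg⟩ := exists_gap_left hf s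
    have h1 : max a s₁ < s := max_lt ha ht.1
    have hg' := hg.mono (le_max_left a s₁) le_rfl
    exact ⟨_, s, le_max_right _ _, h1, ht.2, ⟨h1.le, le_rfl⟩, hg', hg'.preS_eq ⟨h1, le_rfl⟩⟩
  · obtain ⟨c, hc, hg⟩ := exists_gap_right hf s
    have h1 : s < min c T' := lt_min hc ht.2
    have hg' := hg.mono le_rfl (min_le_left c T')
    exact ⟨s, _, ht.1, h1, min_le_right _ _, ⟨le_rfl, h1.le⟩, hg', hg'.postS_eq ⟨le_rfl, h1⟩⟩

/-- the weights of the chain -/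
def Wts (g : ℝ → Ten E3 M) (b d : M → ℝ) (s₁ T' : ℝ) (H : Set (ℝ → M → ℝ)) : Prop :=
  ∀ u ∈ H, (∀ a c, s₁ ≤ a → a < c → c ≤ T' → Gap b d a c → Ht g a c (Liv b d a c) u) ∧
    ∀ W s, Sl b d s₁ T' W s → ∀ x ∈ W, 0 < u s x ∧ u s x ≤ 1

omit [IsManifold 𝓘(ℝ, E3) ∞ M] [BorelSpace M] in
lemma Wts.wt {H : Set (ℝ → M → ℝ)} (hH : Wts g b d s₁ T' H) (hS : SF g b d 0 T) (hT : T' ≤ T)
    (h : Sl b d s₁ T' W s) : (tri (g s) W).Wt ((fun u => u s) '' H) := by
  rintro _ ⟨u, hu, rfl⟩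
  refine ⟨?_, fun x hx => ⟨((hH u hu).2 W s h x hx).1.le, ((hH u hu).2 W s h x hx).2⟩⟩
  obtain ⟨a, c, h1, h2, h3, h4, h5, rfl⟩ := sl_liv h hS.fin
  exact s0_cont (hS.isOpen_liv h2 (h3.trans hT)) (sf_slice ((hH u hu).1 a c h1 h2 h3 h5).sm h4)

end

/-- the invariant goes back to the initial time -/
theorem chain : ∃ c₀ > 0, ∀ (M : Type) [TopologicalSpace M] [ChartedSpace E3 M]
    [IsManifold 𝓘(ℝ, E3) ∞ M] [MeasurableSpace M] [BorelSpace M] (g : ℝ → Ten E3 M) (b d : M → ℝ)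
    (A T η s₁ T' m lam : ℝ) (H : Set (ℝ → M → ℝ)), 0 < A → SF g b d 0 T → Tb c₀ A M g b d T η →
    0 ≤ s₁ → T' ≤ T → Wts g b d s₁ T' H → 0 ≤ lam → lam + 8 ≤ -m - cS A → 7 * (lam + 1) * η ≤ 1 →
    ∀ W t τ, Sl b d s₁ T' W t → 0 < τ → τ + (t - s₁) ≤ 1 + T →
      (tri (g t) W).Inv τ m lam (-2) ((fun u => u t) '' H) univ →
      (tri (g s₁) (postS b d s₁)).Inv (τ + (t - s₁)) m lam (-1) ((fun u => u s₁) '' H) univ := by
  classical
  obtain ⟨c₀, hc₀, hcut⟩ := cut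
  refine ⟨c₀, hc₀, ?_⟩
  intro M _ _ _ _ _ g b d A T η s₁ T' m lam H hA hS ⟨S, η₁, h1, h2, h3⟩ hs hT hH hl hm hη
  set e := 7 * (lam + 1) * (η₁ * (1 + T))
  have T0 := hS.lt
  have e0 : 0 ≤ e := by positivity
  let Z : Set M → ℝ → ℕ → Prop := fun W t n => ∀ τ p, 0 < τ → τ + (t - s₁) ≤ 1 + T →
    p + n * e ≤ -1 → (tri (g t) W).Inv τ m lam p ((fun u => u t) '' H) univ →
    (tri (g s₁) (postS b d s₁)).Inv (τ + (t - s₁)) m lam (-1) ((fun u => u s₁) '' H) univ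
  have mono : ∀ W t (n k : ℕ), n ≤ k → Z W t n → Z W t k := fun W t n k h z τ p a1 a2 a3 =>
    z τ p a1 a2 (le_trans (by gcongr) a3)
  obtain ⟨k1, k2⟩ := surg_ind (T₀ := s₁) (T₁ := T') hS.fin
    (P := fun t => Z (preS b d t) t (S.filter (· < t)).card)
    (Q := fun t => Z (postS b d t) t (S.filter (· ≤ t)).card)
    (fun τ p _ _ a3 hI => by
      rw [sub_self, add_zero]
      exact hI.mono (le_trans (le_add_of_nonneg_right (by positivity)) a3) Subset.rfl Subset.rfl)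
    (fun s t b1 b2 b3 b4 z => by
      refine mono _ _ (S.filter (· ≤ s)).card _ (Finset.card_le_card fun v hv => ?_)
        fun τ p a1 a2 a3 hI => ?_
      · rw [Finset.mem_filter] at hv ⊢
        exact ⟨hv.1, hv.2.trans_lt b2⟩
      have hW := hH.wt hS hT (sl_pre ⟨b1.trans_lt b2, b3⟩)
      have hR := hS.rf s t b2 (b3.trans hT)
      have hc := hS.isCompact_liv b2 (b3.trans hT) b4
      have hh := hS.hs s t b2 (b3.trans hT)
      have F := P216EF.fok E3 (P216EO.tok E3) M g s t _ b2 hR hc hh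
      rw [b4.preS_eq ⟨b2, le_rfl⟩] at hI hW
      have := F.stage rfl (P216EF.fconj E3 (cheat E3) M g s t _ b2 hR hc hh)
        (P216EI.fper M g s t _ b2 hR) a1 hl hW (F.sub_of_heat rfl (Ba := (fun u => u s) '' H) (by
          rintro _ ⟨u, hu, rfl⟩
          have k := (hH u hu).1 s t b1 b2 b3 b4
          exact ⟨u, k.sm, rfl, mem_image_of_mem _ hu, fun r hr x hx =>
            ((k.eqn r (Ioo_subset_Icc_self hr) x hx).hasDerivAt
              (Icc_mem_nhds hr.1 hr.2)).deriv.le⟩)) hI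
      rw [show τ + (t - s₁) = τ + (t - s) + (s - s₁) by ring] at a2 ⊢
      refine z _ p (by linarith) a2 a3 ?_
      rw [b4.postS_eq ⟨le_rfl, b2⟩]
      exact this)
    (fun t ht z => by
      have q1 : Sl b d s₁ T' (preS b d t) t := sl_pre ⟨ht.1, ht.2.le⟩
      have q2 : Sl b d s₁ T' (postS b d t) t := sl_post ⟨ht.1.le, ht.2⟩
      have p1 := sl_up q1 hs hT
      have p2 := sl_up q2 hs hT
      rcases h3 t ⟨hs.trans_lt ht.1, ht.2.trans_le hT⟩ with k | ⟨k, f, K, Λ, C, F, hK⟩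
      · rw [← k]
        refine mono _ _ _ _ (Finset.card_le_card fun v hv => ?_) z
        rw [Finset.mem_filter] at hv ⊢
        exact ⟨hv.1, hv.2.le⟩
      refine mono _ _ ((S.filter (· < t)).card + 1) _ (Finset.card_lt_card ⟨fun v hv => ?_,
        fun hv => ?_⟩) fun τ p a1 a2 a3 hI => ?_
      · rw [Finset.mem_filter] at hv ⊢
        exact ⟨hv.1, hv.2.le⟩
      · exact lt_irrefl t (Finset.mem_filter.1 (hv (Finset.mem_filter.2 ⟨k, le_rfl⟩))).2
      obtain ⟨φ, f1, f2, f3⟩ := hcut M _ f _ τ m lam p A Λ K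
        (P216EO.tri_ok (hS.met p2) (hS.sl_cpt p2) (hS.sl_hs p2)) (hH.wt hS hT q2) F.sm F.two a1 hl
        hA F.nonneg F.der F.le F.pos F.sob hm hI
      refine z τ _ a1 a2 ?_ (Tri.Inv.transfer (C' := C)
        ⟨φ, f1, fun x hx hx' => f2 x hx fun k => hx' (F.mem x hx k), f3⟩ hl
        (P216EO.ttr E3 M _ _ _ C _ _ (hS.met p1) (hS.sl_cpt p1) (hS.sl_hs p1) (hS.met p2)
          (hS.sl_cpt p2) (hS.sl_hs p2) F.cpt F.old F.new (hH.wt hS hT q1) (hH.wt hS hT q2)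
          fun β hβ => ⟨β, hβ, fun _ _ => le_rfl⟩))
      push_cast at a3
      have n0 : 0 ≤ ((S.filter (· < t)).card : ℝ) * e := by positivity
      have L0 := F.nonneg
      have t1 : τ ≤ 1 + T := by linarith [ht.1]
      have j : p + lam + τ * Λ + 1 ≤ (lam + 1) * (1 + T) * (1 + Λ) := by
        have := mul_le_mul_of_nonneg_right t1 L0
        have : 0 ≤ lam * (T + Λ + T * Λ) := by positivity
        nlinarith
      have j2 : 7 * (p + lam + τ * Λ + 1) / 5 ^ K ≤ e := by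
        rw [div_le_iff₀ (by positivity)]
        have := mul_le_mul_of_nonneg_left hK (show 0 ≤ (lam + 1) * (1 + T) by positivity)
        simp only [e]
        linarith
      linarith)
  have fin : ∀ n ≤ S.card, (-2 : ℝ) + n * e ≤ -1 := fun n hn => by
    have a : (n : ℝ) * e ≤ S.card * e := by gcongr
    have := mul_le_mul_of_nonneg_left h2 (show 0 ≤ 7 * (lam + 1) by positivity)
    simp only [e] at a ⊢
    linarith
  rintro W t τ (⟨ht, rfl⟩ | ⟨ht, rfl⟩) a1 a2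
  exacts [k1 t ht τ _ a1 a2 (fin _ (Finset.card_filter_le _ _)),
    k2 t ht τ _ a1 a2 (fin _ (Finset.card_filter_le _ _))]

lemma final1 {X : Type} [TopologicalSpace X] [MeasurableSpace X] {T : Tri X}
    {A B τ m lam p : ℝ} {Bs : Set (X → ℝ)} {C : Set X} (H : T.Ok) (hS : T.Sob univ A B)
    (hA : 0 < A) (hτ : 0 < τ) (hI : T.Inv τ m lam p Bs C) (hl : lam ≤ -m - τ * B - cS A) :
    0 < p := by
  obtain ⟨φ, hφ, -, h1, p', hp, h2⟩ := hI
  have h3 := h2 _ (mem_insert _ _)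
  have h4 := H.logsob hS hA hτ m hφ (by simp) h1.le
  have c := H.cont_v τ m hφ
  have h5 := H.int_mono c (h := fun x => max (T.v τ m φ x) 0) (by fun_prop)
    fun x _ => le_max_left _ _
  have h6 := nonneg_of_mul_nonneg_right ((Odd.pow_nonneg_iff (by decide : Odd 3)).1
    ((H.int_nonneg fun x _ => by positivity).trans (hS φ hφ (by simp)))) hA
  have h7 := mul_le_mul_of_nonneg_right hl
    (H.int_nonneg (f := fun x => φ x ^ 2) fun x _ => by positivity)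
  have h8 := mul_nonneg (half_pos hτ).le h6
  simp only [one_mul] at h3
  linarith

lemma sob_copy {N : Type} [TopologicalSpace N] [ChartedSpace E3 N] [IsManifold 𝓘(ℝ, E3) ∞ N]
    [MeasurableSpace N] [BorelSpace N] {M : Type} [TopologicalSpace M] [ChartedSpace E3 M]
    [IsManifold 𝓘(ℝ, E3) ∞ M] [MeasurableSpace M] [BorelSpace M] {g₀ : Ten E3 N} {U₀ : Set N}
    {g : Ten E3 M} {U : Set M} {A B : ℝ} (h : Copy g₀ U₀ g U) (hc : IsCompact U₀) (hg : Met g U)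
    (hS : (tri g₀ U₀).Sob univ A B) : (tri g U).Sob univ A B := by
  obtain ⟨j, h1, h2, rfl, h4⟩ := h
  intro φ hφ _
  have ho := h1.isOpen
  have e : ∀ F : M → ℝ, ∫ y, F y ∂(tri g (j '' U₀)).μ = ∫ x in U₀, F (j x) ∂vol g₀ := fun F => by
    rw [← vol_restrict_congr ho.measurableSet hc.isLindelof h4]
    exact integral_image g h1 h2 hc.isLindelof Subset.rfl ho.measurableSet Subset.rfl F
  rw [e, e]
  refine (hS (φ ∘ j) (Sm0.comp hφ hg.isOpen h1 (mapsTo_image _ _)) (by simp)).trans_eq ?_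
  congr 2
  refine setIntegral_congr_fun ho.measurableSet fun x hx => ?_
  have L : LI g₀ g j x := ⟨⟨_, hg, mem_image_of_mem _ hx⟩, ⟨_, h1, hx⟩,
    (h4.eventuallyEq_of_mem (ho.mem_nhds hx)).symm⟩
  have D := (Sm0.pt hφ hg.isOpen (mem_image_of_mem j hx)).differentiableAt (by simp)
  simp only [L.gam D D, L.Sc]
  rfl

lemma exists_par (b₀ c k : ℝ) {a : ℝ} (ha : 0 < a) : ∃ lam m, 0 ≤ lam ∧
    b₀ - lam * a / (8 * 100) ≤ -2 ∧ m ≤ 0 ∧ lam + 8 ≤ -m - c ∧ lam ≤ -m - k := by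
  have h : 0 ≤ 800 * (|b₀| + 2) / a := by positivity
  refine ⟨_, -(800 * (|b₀| + 2) / a + 8 + |c| + |k|), h, ?_, ?_, ?_, ?_⟩
  · rw [div_mul_cancel₀ _ ha.ne']
    linarith [le_abs_self b₀]
  all_goals linarith [le_abs_self c, le_abs_self k, abs_nonneg c, abs_nonneg k]

/-- **no collapsing**, local and global -/
theorem nc_main : ∃ c₀ > 0, ∀ A > 0, NCM (Tb c₀ A) ∧ NCG (Tb c₀ A) := by
  obtain ⟨c₀, hc₀, hch⟩ := chain
  obtain ⟨b₀, hb⟩ := nc_of
  have small : ∀ {lam η : ℝ}, 0 ≤ lam → η ≤ 1 / (7 * (lam + 1)) → 7 * (lam + 1) * η ≤ 1 :=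
    fun h k => by rwa [le_div_iff₀ (by positivity), mul_comm] at k
  refine ⟨c₀, hc₀, fun A hA => ⟨fun m hm Λ hΛ => ?_, ?_⟩⟩
  · obtain ⟨lam, m', l0, l1, m0, m1, m2⟩ := exists_par b₀ (cS A)
      (9 + Real.log Λ + 3 / 2 * Real.log (8 * Real.pi)) (lt_min one_pos hm)
    refine ⟨Real.exp m' / 4, by positivity, 1 / (7 * (lam + 1)), by positivity, ?_⟩
    intro M _ _ _ _ _ g b d T η s₁ T' r₀ ρ t U y H hS hη hT h0 h1 h2 hU hy hρ hρr ht hr hR hH hB hy'
    have p := sl_up hU h0 h2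
    refine hb M (g t) U y ρ m' lam _ ((fun u => u t) '' H) (hS.met p) (hS.sl_cpt p) (hS.sl_hs p)
      hy hρ m0 l0 (lt_min one_pos hm).le (min_le_left _ _) (Wts.wt hH hS h2 hU) ?_
      fun r hr' hI => ?_
    · rintro _ ⟨u, hu, rfl⟩ z hz
      exact (min_le_right _ _).trans (hy' u hu z hz)
    have r0 : 0 < r₀ := hρ.trans_le hρr
    have r1 := pow_pos hr'.1 2
    have r2 : r ^ 2 ≤ r₀ ^ 2 := pow_le_pow_left₀ hr'.1.le (hr'.2.trans hρr) 2
    have q : Sl b d s₁ T' (postS b d s₁) s₁ := sl_post ⟨le_rfl, h1.trans_le hU.mem_Icc.2⟩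
    have q' := sl_up q h0 h2
    refine lt_irrefl _ ((P216EO.tri_ok (hS.met q') (hS.sl_cpt q') (hS.sl_hs q')).final2
      (hch M g b d A T η s₁ T' m' lam H hA hS hT h0 h2 hH l0 m1 (small l0 hη) U t (r ^ 2) hU r1
        (by linarith) (hI.mono l1 Subset.rfl Subset.rfl)) (by linarith) (Λ := Λ / r₀ ^ 3)
      (by positivity) (hR _ _ q) (fun φ hφ h => ?_) ?_)
    · obtain ⟨u, hu, e⟩ := hB φ hφ h
      exact ⟨u, hu, e.trans (by simp only [div_div_eq_mul_div])⟩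
    · obtain ⟨τ, e, t0, t1⟩ : ∃ τ, r ^ 2 + (t - s₁) = τ ∧ 0 < τ ∧ τ ≤ 2 * r₀ ^ 2 :=
        ⟨_, rfl, by linarith, by linarith⟩
      have k1 : τ * (3 / r₀ ^ 2) ≤ 6 := by
        rw [← mul_div_assoc, div_le_iff₀ (by positivity)]
        linarith
      have k2 : Real.log (4 * Real.pi * τ) ≤ Real.log (8 * Real.pi * r₀ ^ 2) :=
        Real.log_le_log (by positivity) (by nlinarith [Real.pi_pos])
      rw [e, Real.log_div hΛ.ne' (by positivity)]
      linarith [log_sc (8 * Real.pi) (by positivity) r0]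
  · intro N _ _ _ _ _ U₀ g₀ T₀ hg hc hH
    have K := P216EO.tri_ok hg hc hH
    obtain ⟨A₀, hA₀, B₀, hB₀, hs⟩ := sob_closed hg hc (K.cont _ K.RS)
    obtain ⟨lam, m', l0, l1, m0, m1, m2⟩ := exists_par b₀ (cS A) ((1 + T₀) * B₀ + cS A₀) one_pos
    refine ⟨Real.exp m' / 4, by positivity, 1 / (7 * (lam + 1)), by positivity, ?_⟩
    intro M _ _ _ _ _ g b d T η hS h2 hC hη hT W s p y hy ρ hρ
    refine hb M (g s) W y ρ m' lam 1 ∅ (hS.met p) (hS.sl_cpt p) (hS.sl_hs p) hy hρ.1 m0 l0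
      zero_le_one le_rfl (fun _ h => h.elim) (fun _ h => h.elim) fun r hr hI => ?_
    have r1 := pow_pos hr.1 2
    have r2 : r ^ 2 ≤ 1 := pow_le_one₀ hr.1.le (hr.2.trans hρ.2)
    have q : Sl b d 0 T (postS b d 0) 0 := sl_post ⟨le_rfl, hS.lt⟩
    have k := p.mem_Icc
    have := final1 (P216EO.tri_ok (hS.met q) (hS.sl_cpt q) (hS.sl_hs q))
      (sob_copy hC hc (hS.met q) fun φ hφ _ => hs φ hφ) hA₀ (by linarith [k.1])
      (hch M g b d A T η 0 T m' lam ∅ hA hS hT le_rfl le_rfl (fun _ h => h.elim) l0 m1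
        (small l0 hη) W s (r ^ 2) p r1 (by linarith [k.2])
        (hI.mono l1 (by simp) Subset.rfl)) (by nlinarith [k.2])
    linarith

end Vale.Agent.P216E
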