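import Vale.Agent.P216FI.Vol2
import Vale.Agent.P216R.Flow
import Vale.Agent.P210.R2.H934.Ibp

/-! P216E: integrals in charts -/

open scoped Manifold ContDiff Topology ENNReal
open Set Filter MeasureTheory

set_option maxSynthPendingDepth 3
set_option linter.unusedSectionVars false

noncomputable section

namespace Vale.Agent.P216E

open Vale.Agent.P216R Vale.Agent.P216BF
open Vale.Agent.P210.R2.H53 (dens)

variable {E : Type} [NormedAddCommGroup E] [NormedSpace ℝ E] [FiniteDimensional ℝ E]
  [MeasurableSpace E] [BorelSpace E]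
  {M : Type} [TopologicalSpace M] [ChartedSpace E M] [IsManifold 𝓘(ℝ, E) ∞ M]
  [MeasurableSpace M] [BorelSpace M] {g h : Ten E M} {S K U O : Set M}

/-- subsets of Lindelöf sets of a manifold are Lindelöf -/
theorem lin_sub (E : Type) [NormedAddCommGroup E] [NormedSpace ℝ E] [FiniteDimensional ℝ E]
    [ChartedSpace E M] {K S : Set M} (hK : IsLindelof K) (hS : S ⊆ K) : IsLindelof S := by
  obtain ⟨t, ht, -, hc⟩ := hK.elim_nhds_subcover (fun a => (chartAt E a).source)
    fun a _ => chart_source_mem_nhds E a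
  have e : S = ⋃ a ∈ t, (chartAt E a).symm '' (chartAt E a '' ((chartAt E a).source ∩ S)) := by
    have e1 : ∀ a : M, (chartAt E a).symm '' (chartAt E a '' ((chartAt E a).source ∩ S)) =
        (chartAt E a).source ∩ S := fun a =>
      (chartAt E a).toPartialEquiv.symm_image_image_of_subset_source inter_subset_left
    ext x
    simp only [mem_iUnion, e1]
    refine ⟨fun hx => ?_, fun ⟨_, _, h⟩ => h.2⟩
    obtain ⟨a, ha, hxa⟩ := mem_iUnion₂.1 (hc (hS hx))
    exact ⟨a, ha, hxa, hx⟩
  rw [e]
  refine ht.isLindelof_biUnion fun a _ => IsLindelof.image_of_continuousOn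
    (HereditarilyLindelofSpace.isLindelof _) ((chartAt E a).continuousOn_symm.mono ?_)
  rintro _ ⟨x, hx, rfl⟩
  exact (chartAt E a).map_source hx.1

theorem vol_restrict_congr (hS : MeasurableSet S) (hL : IsLindelof S) (H : EqOn g h S) :
    (vol g).restrict S = (vol h).restrict S := by
  ext T hT
  rw [Measure.restrict_apply hT, Measure.restrict_apply hT]
  exact vol_congr hL (hT.inter hS) inter_subset_right (H.mono inter_subset_right)

theorem image_dom (a : M) (U : Set M) :
    (chartAt E a).symm '' dom E a U = (chartAt E a).source ∩ U := by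
  ext x
  refine ⟨?_, fun hx => ⟨_, mem_dom hx.1 hx.2, (chartAt E a).left_inv hx.1⟩⟩
  rintro ⟨z, hz, rfl⟩
  exact ⟨(chartAt E a).map_target hz.1, hz.2⟩

/-- integrals in the model space -/
theorem integral_vol_model {G : E → Bil E} {S : Set E} (hS : MeasurableSet S)
    (hG : ContinuousOn (dens G) S) (φ : E → ℝ) :
    ∫ z in S, φ z ∂vol G = ∫ z in S, dens G z * φ z ∂haar E := by
  rw [vol_model, restrict_withDensity hS, integral_withDensity_eq_integral_toReal_smul₀
    (f := fun z => ENNReal.ofReal (den (G z)))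
    (hG.aemeasurable hS).ennreal_ofReal (Eventually.of_forall fun z => ENNReal.ofReal_lt_top)]
  simp only [ENNReal.toReal_ofReal (den_nonneg _), smul_eq_mul, dens_eq]

/-- integrals over a chart domain -/
theorem integral_chart (hg : Met g U) (a : M) (φ : M → ℝ) :
    ∫ x in (chartAt E a).source ∩ U, φ x ∂vol g =
      ∫ z in dom E a U, dens (co g a) z * rd E φ a z ∂haar E := by
  have hd := (isOpen_dom (E := E) a hg.isOpen).measurableSet
  rw [← image_dom, integral_image g (ld_symm a) (chartAt E a).symm.injOn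
    (HereditarilyLindelofSpace.isLindelof _) inter_subset_left hd subset_rfl]
  exact integral_vol_model hd (hg.continuousOn_dens a) _

/-- integrals of functions that vanish off a chart domain -/
theorem integral_chart' (hg : Met g U) (a : M) {φ : M → ℝ}
    (h0 : ∀ x ∈ U, x ∉ (chartAt E a).source → φ x = 0) :
    ∫ x in U, φ x ∂vol g = ∫ z in dom E a U, dens (co g a) z * rd E φ a z ∂haar E := by
  rw [← integral_chart hg]
  exact setIntegral_eq_of_subset_of_forall_sdiff_eq_zero hg.isOpen.measurableSet
    inter_subset_right fun x hx => h0 x hx.1 fun h => hx.2 ⟨h, hx.1⟩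

section Euc

variable {F : Type} [NormedAddCommGroup F] [InnerProductSpace ℝ F] [FiniteDimensional ℝ F]
  [MeasurableSpace F] [BorelSpace F]

/-- the volume of the Euclidean metric is Lebesgue measure -/
theorem vol_inner {G : F → Bil F} (hG : ∀ z v w, G z v w = inner ℝ v w) : vol G = volume := by
  classical
  set o := stdOrthonormalBasis ℝ F
  have h1 : ∀ z, (Matrix.of fun i j => G z (o.toBasis i) (o.toBasis j)) = 1 := fun z => by
    ext i j
    simp [hG, orthonormal_iff_ite.1 o.orthonormal, Matrix.one_apply]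
  rw [vol_basis o.toBasis, o.addHaar_eq_volume]
  simp only [h1]
  simp

theorem pd_inner : PD (innerSL ℝ : Bil F) :=
  ⟨fun _ _ => real_inner_comm _ _, fun _ hv => real_inner_self_pos.2 hv⟩

theorem vol_le_euc {G : F → Bil F} {S : Set F} {c : ℝ} (hc : 0 < c) (hS : MeasurableSet S)
    (hp : ∀ x ∈ S, PD (G x)) (hle : ∀ x ∈ S, ∀ v, G x v v ≤ c ^ 2 * ‖v‖ ^ 2) :
    vol G S ≤ ENNReal.ofReal (c ^ Module.finrank ℝ F) * volume S := by
  rw [← vol_inner (G := fun _ => innerSL ℝ) fun _ _ _ => rfl]
  exact vol_le_mul (HereditarilyLindelofSpace.isLindelof _) hS subset_rfl hc hp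
    (fun _ _ => pd_inner) fun x hx v => (hle x hx v).trans_eq
      (congrArg _ (real_inner_self_eq_norm_sq v).symm)

theorem euc_le_vol {G : F → Bil F} {S : Set F} {c : ℝ} (hc : 0 < c) (hS : MeasurableSet S)
    (hp : ∀ x ∈ S, PD (G x)) (hle : ∀ x ∈ S, ∀ v, ‖v‖ ^ 2 ≤ c ^ 2 * G x v v) :
    volume S ≤ ENNReal.ofReal (c ^ Module.finrank ℝ F) * vol G S := by
  rw [← vol_inner (G := fun _ => innerSL ℝ) fun _ _ _ => rfl]
  exact vol_le_mul (HereditarilyLindelofSpace.isLindelof _) hS subset_rfl hc
    (fun _ _ => pd_inner) hp fun x hx v => (real_inner_self_eq_norm_sq v).trans_le (hle x hx v)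

end Euc

end Vale.Agent.P216E
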