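import Vale.Agent.P216E.Defs
import Vale.Agent.P216E.Vol
import Vale.Agent.P216ST.Stmt

/-! P216E: the concrete instances of the abstract layer, statements -/

open scoped Manifold ContDiff Topology ENNReal
open Set Filter MeasureTheory

noncomputable section

namespace Vale.Agent.P216E

open Vale.Agent.P216R Vale.Agent.P216ST

section

variable {E : Type} [NormedAddCommGroup E] [NormedSpace ℝ E] [FiniteDimensional ℝ E]
  [MeasurableSpace E] [BorelSpace E]
  {M : Type} [TopologicalSpace M] [ChartedSpace E M] [MeasurableSpace M]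

/-- the calculus of `(U, g)` -/
abbrev tri (g : Ten E M) (U : Set M) : Tri M :=
  ⟨U, (vol g).restrict U, {f | Sm0 E f U}, gam g, lap g, Sc g⟩

/-- the calculus of a Ricci flow on `[a, b] × U`; `(flo g a b U).T t = tri (g t) U` by `rfl` -/
abbrev flo (g : ℝ → Ten E M) (a b : ℝ) (U : Set M) : Flo M :=
  ⟨a, b, U, fun t => (vol (g t)).restrict U, {f | Sm0 E f U}, fun t => gam (g t),
    fun t => lap (g t), fun t => Sc (g t), {w | SmF E w (Icc a b) U}, fun t => Sc (g t)⟩

end

variable (E : Type) [NormedAddCommGroup E] [NormedSpace ℝ E] [FiniteDimensional ℝ E]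
  [MeasurableSpace E] [BorelSpace E]

/-- the static rules hold -/
def TOK : Prop :=
  ∀ (M : Type) [TopologicalSpace M] [ChartedSpace E M] [IsManifold 𝓘(ℝ, E) ∞ M]
    [MeasurableSpace M] [BorelSpace M] (g : Ten E M) (U : Set M),
    Met g U → IsCompact U → Hs U → (tri g U).Ok

/-- the space-time rules hold -/
def FOK : Prop :=
  ∀ (M : Type) [TopologicalSpace M] [ChartedSpace E M] [IsManifold 𝓘(ℝ, E) ∞ M]
    [MeasurableSpace M] [BorelSpace M] (g : ℝ → Ten E M) (a b : ℝ) (U : Set M),
    a < b → RF g (Icc a b) U → IsCompact U → Hs U → (flo g a b U).Ok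

/-- the static heat equation -/
def THEAT : Prop :=
  ∀ (M : Type) [TopologicalSpace M] [ChartedSpace E M] [IsManifold 𝓘(ℝ, E) ∞ M]
    [MeasurableSpace M] [BorelSpace M] (g : Ten E M) (U : Set M),
    Met g U → IsCompact U → Hs U → (tri g U).Heat

/-- the conjugate heat equation -/
def FCONJ : Prop :=
  ∀ (M : Type) [TopologicalSpace M] [ChartedSpace E M] [IsManifold 𝓘(ℝ, E) ∞ M]
    [MeasurableSpace M] [BorelSpace M] (g : ℝ → Ten E M) (a b : ℝ) (U : Set M),
    a < b → RF g (Icc a b) U → IsCompact U → Hs U → (flo g a b U).Conj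

/-- the differential inequality of Perelman, in dimension three -/
def FPER : Prop :=
  ∀ (M : Type) [TopologicalSpace M] [ChartedSpace E3 M] [IsManifold 𝓘(ℝ, E3) ∞ M]
    [MeasurableSpace M] [BorelSpace M] (g : ℝ → Ten E3 M) (a b : ℝ) (U : Set M),
    a < b → RF g (Icc a b) U → (flo g a b U).Per

/-- transfer between two slices that share a compact part -/
def TTR : Prop :=
  ∀ (M : Type) [TopologicalSpace M] [ChartedSpace E M] [IsManifold 𝓘(ℝ, E) ∞ M]
    [MeasurableSpace M] [BorelSpace M] (g : Ten E M) (U U' C : Set M) (B B' : Set (M → ℝ)),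
    Met g U → IsCompact U → Hs U → Met g U' → IsCompact U' → Hs U' → IsCompact C → C ⊆ U →
    C ⊆ U' → (tri g U).Wt B → (tri g U').Wt B' → (∀ β ∈ B, ∃ β' ∈ B', ∀ x ∈ C, β' x ≤ β x) →
    (tri g U).Tr (tri g U') C B B'

end Vale.Agent.P216E
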