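import Mathlib.MeasureTheory.Integral.Bochner.Set
import Mathlib.Analysis.SpecialFunctions.Log.NegMulLog
import Mathlib.Analysis.SpecialFunctions.Trigonometric.Basic
import Mathlib.Analysis.Calculus.ContDiff.Deriv
import Mathlib.Analysis.Calculus.Deriv.Pow

/-! The abstract layer of the entropy block: a closed manifold with its volume, smooth functions,
gradient pairing, Laplacian and scalar curvature (`Tri`), and families of them (`Flo`). -/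

open MeasureTheory Set
open scoped ContDiff

namespace Vale.Agent.P216E

/-- The data of a closed Riemannian manifold `U`, seen through its calculus. -/
structure Tri (X : Type*) [MeasurableSpace X] where
  /-- the manifold -/
  U : Set X
  /-- the volume -/
  μ : Measure X
  /-- the smooth functions on `U` -/
  S : Set (X → ℝ)
  /-- the inner product of the gradients -/
  Γ : (X → ℝ) → (X → ℝ) → X → ℝ
  /-- the Laplacian -/
  L : (X → ℝ) → X → ℝ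
  /-- the scalar curvature -/
  R : X → ℝ

variable {X X' : Type*} [TopologicalSpace X] [MeasurableSpace X] [TopologicalSpace X']
  [MeasurableSpace X']

namespace Tri

/-- the rules of the calculus -/
structure Ok (T : Tri X) : Prop where
  ae : ∀ᵐ x ∂T.μ, x ∈ T.U
  int : ∀ f : X → ℝ, ContinuousOn f T.U → Integrable f T.μ
  cont : ∀ f ∈ T.S, ContinuousOn f T.U
  add : ∀ f ∈ T.S, ∀ h ∈ T.S, (fun x => f x + h x) ∈ T.S
  comp : ∀ f ∈ T.S, ∀ F : ℝ → ℝ, (∀ x ∈ T.U, ContDiffAt ℝ ∞ F (f x)) → (fun x => F (f x)) ∈ T.S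
  ΓS : ∀ f ∈ T.S, ∀ h ∈ T.S, T.Γ f h ∈ T.S
  LS : ∀ f ∈ T.S, T.L f ∈ T.S
  RS : T.R ∈ T.S
  Γ_comm : ∀ f ∈ T.S, ∀ h ∈ T.S, ∀ x ∈ T.U, T.Γ f h x = T.Γ h f x
  Γ_nonneg : ∀ f ∈ T.S, ∀ x ∈ T.U, 0 ≤ T.Γ f f x
  Γ_add : ∀ f ∈ T.S, ∀ h ∈ T.S, ∀ k ∈ T.S, ∀ x ∈ T.U,
    T.Γ (fun y => f y + h y) k x = T.Γ f k x + T.Γ h k x
  Γ_comp : ∀ f ∈ T.S, ∀ F : ℝ → ℝ, (∀ x ∈ T.U, ContDiffAt ℝ ∞ F (f x)) → ∀ k ∈ T.S, ∀ x ∈ T.U,
    T.Γ (fun y => F (f y)) k x = deriv F (f x) * T.Γ f k x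
  L_add : ∀ f ∈ T.S, ∀ h ∈ T.S, ∀ x ∈ T.U, T.L (fun y => f y + h y) x = T.L f x + T.L h x
  L_comp : ∀ f ∈ T.S, ∀ F : ℝ → ℝ, (∀ x ∈ T.U, ContDiffAt ℝ ∞ F (f x)) → ∀ x ∈ T.U,
    T.L (fun y => F (f y)) x = deriv F (f x) * T.L f x + deriv (deriv F) (f x) * T.Γ f f x
  L_congr : ∀ f h : X → ℝ, EqOn f h T.U → EqOn (T.L f) (T.L h) T.U
  Γ_congr : ∀ f h k : X → ℝ, EqOn f h T.U → EqOn (T.Γ f k) (T.Γ h k) T.U
  green : ∀ f ∈ T.S, ∀ h ∈ T.S, ∫ x, f x * T.L h x ∂T.μ = -∫ x, T.Γ f h x ∂T.μ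

/-- the entropy density of `φ ^ 2` at scale `τ`, lowered by `m` -/
noncomputable def v (T : Tri X) (τ m : ℝ) (φ : X → ℝ) (x : X) : ℝ :=
  τ * (-4 * φ x * T.L φ x + T.R x * φ x ^ 2) - φ x ^ 2 * Real.log (φ x ^ 2)
    - (3 / 2 * Real.log (4 * Real.pi * τ) + 3 + m) * φ x ^ 2

/-- the invariant carried backward along a flow with surgery; `B` is a set of weights -/
def Inv (T : Tri X) (τ m lam p : ℝ) (B : Set (X → ℝ)) (C : Set X) : Prop :=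
  ∃ φ ∈ T.S, (∀ x ∈ T.U, x ∉ C → φ x = 0) ∧ ∫ x, φ x ^ 2 ∂T.μ < 1 ∧ ∃ p' < p,
    ∀ β ∈ insert (fun _ => 1) B,
      ∫ x, max (T.v τ m φ x) 0 ∂T.μ - lam * ∫ x, β x * φ x ^ 2 ∂T.μ ≤ p'

/-- the Sobolev inequality for functions vanishing off `W` -/
def Sob (T : Tri X) (W : Set X) (A B : ℝ) : Prop :=
  ∀ φ ∈ T.S, (∀ x ∈ T.U, x ∉ W → φ x = 0) →
    ∫ x, φ x ^ 6 ∂T.μ ≤ (A * ∫ x, (4 * T.Γ φ φ x + (T.R x + B) * φ x ^ 2) ∂T.μ) ^ 3

/-- a set of weights: continuous with values in `[0, 1]` -/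
def Wt (T : Tri X) (B : Set (X → ℝ)) : Prop :=
  ∀ β ∈ B, ContinuousOn β T.U ∧ ∀ x ∈ T.U, 0 ≤ β x ∧ β x ≤ 1

/-- functions on `T'` vanishing off `C'` can be carried over to `T` isometrically -/
def Tr (T : Tri X) (T' : Tri X') (C' : Set X') (B : Set (X → ℝ)) (B' : Set (X' → ℝ)) : Prop :=
  ∀ φ' ∈ T'.S, (∀ x ∈ T'.U, x ∉ C' → φ' x = 0) → ∃ φ ∈ T.S,
    (∀ G : ℝ → ℝ → ℝ → ℝ, (∀ l r, G 0 l r = 0) →
      ∫ x, G (φ x) (T.L φ x) (T.R x) ∂T.μ = ∫ x, G (φ' x) (T'.L φ' x) (T'.R x) ∂T'.μ) ∧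
    ∀ β ∈ B, ∃ β' ∈ B', ∫ x, β' x * φ' x ^ 2 ∂T'.μ ≤ ∫ x, β x * φ x ^ 2 ∂T.μ

end Tri

/-- the constant of the logarithmic Sobolev inequality -/
noncomputable def cS (A : ℝ) : ℝ := 3 / 2 * Real.log (12 * Real.pi * A) + 3 / 2

/-- The data of a smooth family of metrics on a closed manifold over `[a, b]`. -/
structure Flo (X : Type*) [MeasurableSpace X] where
  /-- initial time -/
  a : ℝ
  /-- final time -/
  b : ℝ
  /-- the manifold -/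
  U : Set X
  /-- the volumes -/
  μ : ℝ → Measure X
  /-- the smooth functions on the manifold -/
  S : Set (X → ℝ)
  /-- the inner products of the gradients -/
  Γ : ℝ → (X → ℝ) → (X → ℝ) → X → ℝ
  /-- the Laplacians -/
  L : ℝ → (X → ℝ) → X → ℝ
  /-- the scalar curvatures -/
  R : ℝ → X → ℝ
  /-- the smooth functions on `[a, b] × U` -/
  ST : Set (ℝ → X → ℝ)
  /-- the rate of decrease of the volume element -/
  P : ℝ → X → ℝ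

namespace Flo

variable (F : Flo X)

/-- the time slices -/
abbrev T (t : ℝ) : Tri X := ⟨F.U, F.μ t, F.S, F.Γ t, F.L t, F.R t⟩

/-- the rules of the space-time calculus -/
structure Ok : Prop where
  hab : F.a ≤ F.b
  ok : ∀ t ∈ Icc F.a F.b, (F.T t).Ok
  slice : ∀ w ∈ F.ST, ∀ t ∈ Icc F.a F.b, w t ∈ F.S
  stat : ∀ f ∈ F.S, (fun _ => f) ∈ F.ST
  time : (fun t _ => t) ∈ F.ST
  add : ∀ w ∈ F.ST, ∀ z ∈ F.ST, (fun t x => w t x + z t x) ∈ F.ST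
  comp : ∀ w ∈ F.ST, ∀ G : ℝ → ℝ, (∀ t ∈ Icc F.a F.b, ∀ x ∈ F.U, ContDiffAt ℝ ∞ G (w t x)) →
    (fun t x => G (w t x)) ∈ F.ST
  ΓST : ∀ w ∈ F.ST, ∀ z ∈ F.ST, (fun t => F.Γ t (w t) (z t)) ∈ F.ST
  LST : ∀ w ∈ F.ST, (fun t => F.L t (w t)) ∈ F.ST
  RST : F.R ∈ F.ST
  PST : F.P ∈ F.ST
  diff : ∀ w ∈ F.ST, ∀ t ∈ Ioo F.a F.b, ∀ x ∈ F.U, DifferentiableAt ℝ (fun s => w s x) t
  dS : ∀ w ∈ F.ST, ∀ t ∈ Ioo F.a F.b, (fun x => deriv (fun s => w s x) t) ∈ F.S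
  cint : ∀ w ∈ F.ST, ContinuousOn (fun t => ∫ x, w t x ∂F.μ t) (Icc F.a F.b)
  dint : ∀ w ∈ F.ST, ∀ t ∈ Ioo F.a F.b, HasDerivAt (fun s => ∫ x, w s x ∂F.μ s)
    (∫ x, (deriv (fun s => w s x) t - F.P t x * w t x) ∂F.μ t) t

/-- `u` is a positive solution of the conjugate heat equation -/
def IsConj (u : ℝ → X → ℝ) : Prop :=
  u ∈ F.ST ∧ (∀ t ∈ Icc F.a F.b, ∀ x ∈ F.U, 0 < u t x) ∧ ∀ t ∈ Ioo F.a F.b, ∀ x ∈ F.U,
    deriv (fun s => u s x) t = -F.L t (u t) x + F.R t x * u t x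

/-- the conjugate heat equation can be solved -/
def Conj : Prop :=
  ∀ f ∈ F.S, (∀ x ∈ F.U, 0 < f x) → ∃ u, F.IsConj u ∧ EqOn (u F.b) f F.U

/-- the bracket in the entropy density, for `l = log u` and `τ = c - t` -/
def y (c : ℝ) (l : ℝ → X → ℝ) (t : ℝ) (x : X) : ℝ :=
  (c - t) * (-2 * F.L t (l t) x - F.Γ t (l t) (l t) x + F.R t x) - l t x

/-- the differential inequality of Perelman -/
def Per : Prop :=
  ∀ l ∈ F.ST, (∀ t ∈ Ioo F.a F.b, ∀ x ∈ F.U, deriv (fun s => l s x) t =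
    -F.L t (l t) x - F.Γ t (l t) (l t) x + F.R t x) →
  ∀ c : ℝ, ∀ t ∈ Ioo F.a F.b, ∀ x ∈ F.U, 0 ≤ (c - t) * (deriv (fun s => F.y c l s x) t
    + F.L t (F.y c l t) x + 2 * F.Γ t (l t) (F.y c l t) x) + 3 / 2

/-- the weights at time `a` are dominated, in the dual sense, by weights at time `b` -/
def Sub (Ba Bb : Set (X → ℝ)) : Prop :=
  ∀ α ∈ Ba, ∃ β ∈ Bb, ∀ u, F.IsConj u →
    ∫ x, β x * u F.b x ∂F.μ F.b ≤ ∫ x, α x * u F.a x ∂F.μ F.a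

/-- the constant family over `[0, s]` -/
abbrev _root_.Vale.Agent.P216E.Tri.stat (T : Tri X) (s : ℝ) (ST : Set (ℝ → X → ℝ)) : Flo X :=
  ⟨0, s, T.U, fun _ => T.μ, T.S, fun _ => T.Γ, fun _ => T.L, fun _ => T.R, ST, fun _ _ => 0⟩

end Flo

namespace Tri

/-- the heat equation with a potential can be solved for the fixed metric -/
def Heat (T : Tri X) : Prop :=
  ∀ s > 0, ∃ ST : Set (ℝ → X → ℝ), (T.stat s ST).Ok ∧
    (∀ w ∈ ST, ∀ t ∈ Ioo 0 s, ∀ x ∈ T.U, HasDerivAt (fun r => T.Γ (w r) (w r) x)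
      (2 * T.Γ (w t) (fun z => deriv (fun r => w r z) t) x) t) ∧
    ∀ q ∈ T.S, ∀ f ∈ T.S, ∃ w ∈ ST, EqOn (w 0) f T.U ∧ ∀ t ∈ Ioo 0 s, ∀ x ∈ T.U,
      deriv (fun r => w r x) t = T.L (w t) x - q x * w t x

omit [TopologicalSpace X] [MeasurableSpace X] in
lemma pol (f h : X → ℝ) : (fun x => f x * h x) =
    fun x => 1 / 4 * (f x + h x) ^ 2 + -1 / 4 * (f x + -1 * h x) ^ 2 := by
  funext x; ring

lemma deriv_lin (c : ℝ) : deriv (fun r : ℝ => c * r) = fun _ => c := by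
  funext r; simp

lemma deriv_sq : deriv (fun r : ℝ => r ^ 2) = fun r => 2 * r := by
  funext r; simp

omit [TopologicalSpace X] in
lemma Inv.mono {T : Tri X} {τ m lam p p' : ℝ} {B B' : Set (X → ℝ)} {C C' : Set X}
    (H : T.Inv τ m lam p B C) (hp : p ≤ p') (hB : B' ⊆ B) (hC : C ⊆ C') :
    T.Inv τ m lam p' B' C' := by
  obtain ⟨φ, h1, h2, h3, q, h4, h5⟩ := H
  exact ⟨φ, h1, fun x hx hx' => h2 x hx fun h => hx' (hC h), h3, q, h4.trans_le hp,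
    fun β hβ => h5 β (insert_subset_insert hB hβ)⟩

omit [TopologicalSpace X] [TopologicalSpace X'] in
/-- transfer of the invariant through an isometric identification -/
lemma Inv.transfer {T : Tri X} {T' : Tri X'} {τ m lam p : ℝ} {B : Set (X → ℝ)}
    {B' : Set (X' → ℝ)} {C' : Set X'} (H : T'.Inv τ m lam p B' C') (hl : 0 ≤ lam)
    (hT : T.Tr T' C' B B') : T.Inv τ m lam p B univ := by
  obtain ⟨φ', h1, h2, h3, q, h4, h5⟩ := H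
  obtain ⟨φ, hφ, hG, hβ⟩ := hT φ' h1 h2
  have e1 := hG (fun r _ _ => r ^ 2) (by simp)
  have e2 := hG (fun r l s => max (τ * (-4 * r * l + s * r ^ 2) - r ^ 2 * Real.log (r ^ 2)
      - (3 / 2 * Real.log (4 * Real.pi * τ) + 3 + m) * r ^ 2) 0) (by simp)
  refine ⟨φ, hφ, by simp, e1 ▸ h3, q, h4, ?_⟩
  unfold v at h5 ⊢
  rintro β (rfl | hB)
  · have := h5 _ (mem_insert _ _)
    simp only [one_mul] at this ⊢
    rw [e1, e2]; exact this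
  · obtain ⟨β', h6, h7⟩ := hβ β hB
    have h8 := mul_le_mul_of_nonneg_left h7 hl
    have := h5 β' (mem_insert_of_mem _ h6)
    linarith

namespace Ok

variable {T : Tri X} (H : T.Ok) {f h k : X → ℝ} {x : X}
include H

lemma const (c : ℝ) : (fun _ => c) ∈ T.S :=
  H.comp _ H.RS (fun _ => c) fun _ _ => contDiffAt_const

lemma smul (c : ℝ) (hf : f ∈ T.S) : (fun x => c * f x) ∈ T.S :=
  H.comp _ hf (fun r => c * r) fun _ _ => by fun_prop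

lemma pow (n : ℕ) (hf : f ∈ T.S) : (fun x => f x ^ n) ∈ T.S :=
  H.comp _ hf (fun r => r ^ n) fun _ _ => by fun_prop

lemma sub (hf : f ∈ T.S) (hh : h ∈ T.S) : (fun x => f x - h x) ∈ T.S := by
  simpa [sub_eq_add_neg] using H.add _ hf _ (H.smul (-1) hh)

lemma mul (hf : f ∈ T.S) (hh : h ∈ T.S) : (fun x => f x * h x) ∈ T.S := by
  rw [pol]
  exact H.add _ (H.smul _ (H.pow 2 (H.add _ hf _ hh))) _
    (H.smul _ (H.pow 2 (H.add _ hf _ (H.smul _ hh))))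

lemma Γ_const (c : ℝ) (hk : k ∈ T.S) (hx : x ∈ T.U) : T.Γ (fun _ => c) k x = 0 := by
  simpa using H.Γ_comp _ H.RS (fun _ => c) (fun _ _ => contDiffAt_const) k hk x hx

lemma L_const (c : ℝ) (hx : x ∈ T.U) : T.L (fun _ => c) x = 0 := by
  simpa using H.L_comp _ H.RS (fun _ => c) (fun _ _ => contDiffAt_const) x hx

lemma Γ_smul (c : ℝ) (hf : f ∈ T.S) (hk : k ∈ T.S) (hx : x ∈ T.U) :
    T.Γ (fun y => c * f y) k x = c * T.Γ f k x := by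
  have := H.Γ_comp _ hf (fun r => c * r) (fun _ _ => by fun_prop) k hk x hx
  rwa [deriv_lin] at this

lemma L_smul (c : ℝ) (hf : f ∈ T.S) (hx : x ∈ T.U) :
    T.L (fun y => c * f y) x = c * T.L f x := by
  have := H.L_comp _ hf (fun r => c * r) (fun _ _ => by fun_prop) x hx
  rw [deriv_lin] at this
  simpa using this

lemma Γ_sq (hf : f ∈ T.S) (hk : k ∈ T.S) (hx : x ∈ T.U) :
    T.Γ (fun y => f y ^ 2) k x = 2 * f x * T.Γ f k x := by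
  have := H.Γ_comp _ hf (fun r => r ^ 2) (fun _ _ => by fun_prop) k hk x hx
  rwa [deriv_sq] at this

lemma L_sq (hf : f ∈ T.S) (hx : x ∈ T.U) :
    T.L (fun y => f y ^ 2) x = 2 * f x * T.L f x + 2 * T.Γ f f x := by
  have := H.L_comp _ hf (fun r => r ^ 2) (fun _ _ => by fun_prop) x hx
  rwa [deriv_sq, deriv_lin] at this

lemma Γ_mul (hf : f ∈ T.S) (hh : h ∈ T.S) (hk : k ∈ T.S) (hx : x ∈ T.U) :
    T.Γ (fun y => f y * h y) k x = f x * T.Γ h k x + h x * T.Γ f k x := by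
  have h1 := H.add _ hf _ hh
  have h2 := H.add _ hf _ (H.smul (-1) hh)
  rw [pol, H.Γ_add _ (H.smul _ (H.pow 2 h1)) _ (H.smul _ (H.pow 2 h2)) k hk x hx,
    H.Γ_smul _ (H.pow 2 h1) hk hx, H.Γ_smul _ (H.pow 2 h2) hk hx, H.Γ_sq h1 hk hx,
    H.Γ_sq h2 hk hx, H.Γ_add _ hf _ hh k hk x hx, H.Γ_add _ hf _ (H.smul _ hh) k hk x hx,
    H.Γ_smul _ hh hk hx]
  ring

lemma Γ_lin (c : ℝ) (hf : f ∈ T.S) (hh : h ∈ T.S) (hx : x ∈ T.U) :
    T.Γ (fun y => f y + c * h y) (fun y => f y + c * h y) x =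
      T.Γ f f x + 2 * c * T.Γ f h x + c ^ 2 * T.Γ h h x := by
  have h1 := H.smul c hh
  have h2 := H.add _ hf _ h1
  rw [H.Γ_add _ hf _ h1 _ h2 x hx, H.Γ_smul c hh h2 hx, H.Γ_comm _ hf _ h2 x hx,
    H.Γ_comm _ hh _ h2 x hx, H.Γ_add _ hf _ h1 _ hf x hx, H.Γ_add _ hf _ h1 _ hh x hx,
    H.Γ_smul c hh hf hx, H.Γ_smul c hh hh hx, H.Γ_comm _ hh _ hf x hx]
  ring

lemma L_mul (hf : f ∈ T.S) (hh : h ∈ T.S) (hx : x ∈ T.U) :
    T.L (fun y => f y * h y) x = f x * T.L h x + h x * T.L f x + 2 * T.Γ f h x := by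
  have h1 := H.add _ hf _ hh
  have h2 := H.add _ hf _ (H.smul (-1) hh)
  have e1 := H.Γ_lin 1 hf hh hx
  simp only [one_mul] at e1
  rw [pol, H.L_add _ (H.smul _ (H.pow 2 h1)) _ (H.smul _ (H.pow 2 h2)) x hx,
    H.L_smul _ (H.pow 2 h1) hx, H.L_smul _ (H.pow 2 h2) hx, H.L_sq h1 hx,
    H.L_sq h2 hx, H.L_add _ hf _ hh x hx, H.L_add _ hf _ (H.smul _ hh) x hx,
    H.L_smul _ hh hx, e1, H.Γ_lin (-1) hf hh hx]
  ring

/-- Cauchy-Schwarz in Young form -/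
lemma young (c : ℝ) (hf : f ∈ T.S) (hh : h ∈ T.S) (hx : x ∈ T.U) :
    2 * c * T.Γ f h x ≤ T.Γ f f x + c ^ 2 * T.Γ h h x := by
  have := H.Γ_nonneg _ (H.add _ hf _ (H.smul (-c) hh)) x hx
  rw [H.Γ_lin (-c) hf hh hx] at this
  linarith

lemma Γ_mul_self (hf : f ∈ T.S) (hh : h ∈ T.S) (hx : x ∈ T.U) :
    T.Γ (fun y => f y * h y) (fun y => f y * h y) x =
      f x ^ 2 * T.Γ h h x + 2 * f x * h x * T.Γ f h x + h x ^ 2 * T.Γ f f x := by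
  have h1 := H.mul hf hh
  rw [H.Γ_mul hf hh h1 hx, H.Γ_comm _ hh _ h1 x hx, H.Γ_comm _ hf _ h1 x hx,
    H.Γ_mul hf hh hh hx, H.Γ_mul hf hh hf hx, H.Γ_comm _ hh _ hf x hx]
  ring

lemma intS (hf : f ∈ T.S) : Integrable f T.μ := H.int _ (H.cont _ hf)

lemma int_congr (e : ∀ x ∈ T.U, f x = h x) : ∫ x, f x ∂T.μ = ∫ x, h x ∂T.μ :=
  integral_congr_ae (H.ae.mono e)

lemma int_mono (hf : ContinuousOn f T.U) (hh : ContinuousOn h T.U) (e : ∀ x ∈ T.U, f x ≤ h x) :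
    ∫ x, f x ∂T.μ ≤ ∫ x, h x ∂T.μ :=
  integral_mono_ae (H.int _ hf) (H.int _ hh) (H.ae.mono e)

lemma int_nonneg (e : ∀ x ∈ T.U, 0 ≤ f x) : 0 ≤ ∫ x, f x ∂T.μ :=
  integral_nonneg_of_ae (H.ae.mono e)

lemma int_L (hf : f ∈ T.S) : ∫ x, T.L f x ∂T.μ = 0 := by
  have := H.green _ (H.const 1) _ hf
  rw [H.int_congr (f := T.Γ (fun _ => 1) f) (h := fun _ => 0) fun x hx => H.Γ_const 1 hf hx] at this
  simpa using this

lemma cont_v (τ m : ℝ) (hf : f ∈ T.S) : ContinuousOn (T.v τ m f) T.U := by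
  have h1 := H.cont _ hf
  have h2 := H.cont _ (H.LS _ hf)
  have h3 := H.cont _ H.RS
  have h4 : ContinuousOn (fun x => f x ^ 2 * Real.log (f x ^ 2)) T.U :=
    Real.continuous_mul_log.comp_continuousOn (h1.pow 2)
  unfold v
  fun_prop

end Ok

end Tri

end Vale.Agent.P216E
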