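import Vale.Agent.P216E.Defs
import Mathlib.Analysis.SpecialFunctions.Sqrt

/-! P216E: logarithmic Sobolev inequality, localisation, the final estimate -/

open MeasureTheory Set
open scoped ContDiff

namespace Vale.Agent.P216E

lemma ent_pt (r : ℝ) {s : ℝ} (hs : 0 < s) :
    r ^ 2 * Real.log (r ^ 2) ≤ r ^ 6 / (2 * s) + (Real.log s - 1) / 2 * r ^ 2 := by
  rcases eq_or_ne r 0 with rfl | hr
  · simp
  have h0 : 0 < r ^ 2 := by positivity
  have h1 := Real.log_le_sub_one_of_pos (show 0 < (r ^ 2) ^ 2 / s by positivity)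
  rw [Real.log_div (by positivity) hs.ne', Real.log_pow] at h1
  have h2 := mul_le_mul_of_nonneg_left h1 h0.le
  have h3 : r ^ 6 / (2 * s) = r ^ 2 * ((r ^ 2) ^ 2 / s) / 2 := by field_simp
  push_cast at h2
  nlinarith

lemma ent_real {A τ q a e : ℝ} (hA : 0 < A) (hτ : 0 < τ) (hq : 0 ≤ q) (ha : 0 ≤ a) (ha1 : a ≤ 1)
    (h : ∀ s > 0, e ≤ (A * q) ^ 3 / (2 * s) + (Real.log s - 1) / 2 * a) :
    e ≤ τ / 2 * q + (cS A - (3 / 2 * Real.log (4 * Real.pi * τ) + 3)) * a := by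
  have hc : cS A - (3 / 2 * Real.log (4 * Real.pi * τ) + 3) =
      3 / 2 * (Real.log (3 * A / τ) - 1) := by
    have := Real.pi_pos
    have e1 : Real.log (3 * A / τ) = Real.log (12 * Real.pi * A) - Real.log (4 * Real.pi * τ) := by
      rw [← Real.log_div (by positivity) (by positivity)]
      congr 1; field_simp; norm_num
    rw [e1, cS]; ring
  rw [hc]
  rcases hq.eq_or_lt with rfl | hq
  · have := h (Real.exp (3 * (Real.log (3 * A / τ) - 1) + 1)) (Real.exp_pos _)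
    rw [Real.log_exp] at this
    simp only [mul_zero] at this ⊢
    norm_num at this
    linarith
  rcases ha.eq_or_lt with rfl | ha
  · have := h ((A * q) ^ 3 / (τ * q)) (by positivity)
    rw [show (A * q) ^ 3 / (2 * ((A * q) ^ 3 / (τ * q))) = τ / 2 * q by field_simp] at this
    simpa using this
  have h1 := h ((A * q) ^ 3 / a) (by positivity)
  rw [show (A * q) ^ 3 / (2 * ((A * q) ^ 3 / a)) = a / 2 by field_simp,
    show (A * q) ^ 3 / a = (τ * q / (3 * a) * (3 * A / τ)) ^ 3 * a ^ 2 by field_simp,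
    Real.log_mul (by positivity) (by positivity), Real.log_pow, Real.log_pow,
    Real.log_mul (by positivity) (by positivity)] at h1
  have h2 := Real.log_le_sub_one_of_pos (show 0 < τ * q / (3 * a) by positivity)
  have h3 := Real.log_nonpos ha.le ha1
  have h4 := mul_le_mul_of_nonneg_left h2 ha.le
  have h5 : a * (τ * q / (3 * a)) = τ * q / 3 := by field_simp
  push_cast at h1
  nlinarith

lemma log_mul_sq (e r : ℝ) : (e * r) ^ 2 * Real.log ((e * r) ^ 2) =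
    e ^ 2 * (r ^ 2 * Real.log (r ^ 2)) + e ^ 2 * Real.log (e ^ 2) * r ^ 2 := by
  rcases eq_or_ne e 0 with rfl | he
  · simp
  rcases eq_or_ne r 0 with rfl | hr
  · simp
  rw [mul_pow, Real.log_mul (by positivity) (by positivity)]; ring

lemma neg_mul_log_le {y : ℝ} (hy : 0 ≤ y) : -(y * Real.log y) ≤ 1 := by
  have := Real.negMulLog_le_one_sub_self hy
  rw [Real.negMulLog] at this
  linarith

variable {X : Type*} [TopologicalSpace X] [MeasurableSpace X]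

namespace Tri.Ok

variable {T : Tri X} (H : T.Ok) {φ η : X → ℝ} {x : X} {τ m A B : ℝ} {W : Set X}
include H

lemma cont_ent (hφ : φ ∈ T.S) : ContinuousOn (fun x => φ x ^ 2 * Real.log (φ x ^ 2)) T.U :=
  Real.continuous_mul_log.comp_continuousOn ((H.cont _ hφ).pow 2)

lemma int_add {f h : X → ℝ} (hf : ContinuousOn f T.U) (hh : ContinuousOn h T.U) :
    ∫ x, (f x + h x) ∂T.μ = ∫ x, f x ∂T.μ + ∫ x, h x ∂T.μ :=
  integral_add (H.int _ hf) (H.int _ hh)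

lemma int_sub {f h : X → ℝ} (hf : ContinuousOn f T.U) (hh : ContinuousOn h T.U) :
    ∫ x, (f x - h x) ∂T.μ = ∫ x, f x ∂T.μ - ∫ x, h x ∂T.μ :=
  integral_sub (H.int _ hf) (H.int _ hh)

lemma int_v (τ m B : ℝ) (hφ : φ ∈ T.S) : ∫ x, T.v τ m φ x ∂T.μ =
    τ * ∫ x, (4 * T.Γ φ φ x + (T.R x + B) * φ x ^ 2) ∂T.μ
      - ∫ x, φ x ^ 2 * Real.log (φ x ^ 2) ∂T.μ
      - (3 / 2 * Real.log (4 * Real.pi * τ) + 3 + m + τ * B) * ∫ x, φ x ^ 2 ∂T.μ := by
  have h1 := H.cont _ hφ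
  have h2 := H.cont _ (H.LS _ hφ)
  have h3 := H.cont _ H.RS
  have h4 := H.cont_ent hφ
  have h5 := H.cont _ (H.ΓS _ hφ _ hφ)
  have e : ∀ x, T.v τ m φ x = (-4 * τ * (φ x * T.L φ x) + τ * ((T.R x + B) * φ x ^ 2)
      - φ x ^ 2 * Real.log (φ x ^ 2))
      - (3 / 2 * Real.log (4 * Real.pi * τ) + 3 + m + τ * B) * φ x ^ 2 := fun x => by
    unfold v; ring
  simp only [e]
  rw [H.int_sub (by fun_prop) (by fun_prop), H.int_sub (by fun_prop) h4,
    H.int_add (by fun_prop) (by fun_prop), H.int_add (by fun_prop) (by fun_prop)]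
  simp only [integral_const_mul, H.green _ hφ _ hφ]
  ring

/-- the logarithmic Sobolev inequality -/
lemma logsob (hS : T.Sob W A B) (hA : 0 < A) (hτ : 0 < τ) (m : ℝ) (hφ : φ ∈ T.S)
    (h0 : ∀ x ∈ T.U, x ∉ W → φ x = 0) (h1 : ∫ x, φ x ^ 2 ∂T.μ ≤ 1) :
    τ / 2 * ∫ x, (4 * T.Γ φ φ x + (T.R x + B) * φ x ^ 2) ∂T.μ
      + (-m - τ * B - cS A) * ∫ x, φ x ^ 2 ∂T.μ ≤ ∫ x, T.v τ m φ x ∂T.μ := by
  have c1 := H.cont _ hφ
  have h2 := hS φ hφ h0
  have h3 : 0 ≤ ∫ x, φ x ^ 6 ∂T.μ := H.int_nonneg fun x _ => by positivity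
  have h4 : 0 ≤ ∫ x, (4 * T.Γ φ φ x + (T.R x + B) * φ x ^ 2) ∂T.μ := by
    have := (Odd.pow_nonneg_iff (by decide : Odd 3)).1 (h3.trans h2)
    exact nonneg_of_mul_nonneg_right this hA
  have h5 := ent_real (e := ∫ x, φ x ^ 2 * Real.log (φ x ^ 2) ∂T.μ) hA hτ h4
    (H.int_nonneg fun x _ => by positivity) h1 fun s hs => by
      refine (H.int_mono (H.cont_ent hφ) (by fun_prop) fun x _ => ent_pt (φ x) hs).trans ?_
      rw [H.int_add (by fun_prop) (by fun_prop), integral_div, integral_const_mul]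
      gcongr
  rw [H.int_v τ m B hφ]
  linarith

lemma v_mul (τ m : ℝ) (hη : η ∈ T.S) (hφ : φ ∈ T.S) (hx : x ∈ T.U) :
    T.v τ m (fun y => η y * φ y) x = η x ^ 2 * T.v τ m φ x - 8 * τ * η x * φ x * T.Γ η φ x
      - 4 * τ * η x * T.L η x * φ x ^ 2 - η x ^ 2 * Real.log (η x ^ 2) * φ x ^ 2 := by
  unfold v
  rw [H.L_mul hη hφ hx, log_mul_sq]
  ring

lemma int_v_mul (τ m : ℝ) (hη : η ∈ T.S) (hφ : φ ∈ T.S) :
    ∫ x, T.v τ m (fun y => η y * φ y) x ∂T.μ = ∫ x, (η x ^ 2 * T.v τ m φ x +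
      (4 * τ * T.Γ η η x - η x ^ 2 * Real.log (η x ^ 2)) * φ x ^ 2) ∂T.μ := by
  have c1 := H.cont _ hφ
  have c2 := H.cont _ hη
  have c3 := H.cont _ (H.LS _ hη)
  have c4 := H.cont_ent hη
  have c5 := H.cont_v τ m hφ
  have c6 := H.cont _ (H.ΓS _ hη _ hη)
  have h1 := H.mul hη (H.pow 2 hφ)
  have c7 := H.cont _ (H.ΓS _ h1 _ hη)
  have h2 := H.green _ h1 _ hη
  rw [H.int_congr (h := fun x => (η x ^ 2 * T.v τ m φ x +
      (4 * τ * T.Γ η η x - η x ^ 2 * Real.log (η x ^ 2)) * φ x ^ 2) - 4 * τ *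
      (η x * φ x ^ 2 * T.L η x + T.Γ (fun y => η y * φ y ^ 2) η x)) fun x hx => by
      rw [H.v_mul τ m hη hφ hx, H.Γ_mul hη (H.pow 2 hφ) hη hx, H.Γ_sq hφ hη hx,
        H.Γ_comm _ hφ _ hη x hx]; ring,
    H.int_sub (by fun_prop) (by fun_prop), integral_const_mul,
    H.int_add (f := fun x => η x * φ x ^ 2 * T.L η x) (by fun_prop) c7, h2]
  ring

/-- the localised logarithmic Sobolev inequality -/
lemma loc (hS : T.Sob W A B) (hA : 0 < A) (hτ : 0 < τ) (m : ℝ) (hη : η ∈ T.S) (hφ : φ ∈ T.S)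
    (h0 : ∀ x ∈ T.U, x ∉ W → η x = 0) (hη1 : ∀ x ∈ T.U, η x ^ 2 ≤ 1)
    (h1 : ∫ x, φ x ^ 2 ∂T.μ ≤ 1) :
    τ / 2 * ∫ x, (4 * T.Γ (fun y => η y * φ y) (fun y => η y * φ y) x
        + (T.R x + B) * (η x * φ x) ^ 2) ∂T.μ
      + (-m - τ * B - cS A) * ∫ x, (η x * φ x) ^ 2 ∂T.μ ≤ ∫ x, (η x ^ 2 * max (T.v τ m φ x) 0 +
      (4 * τ * T.Γ η η x - η x ^ 2 * Real.log (η x ^ 2)) * φ x ^ 2) ∂T.μ := by
  have c1 := H.cont _ hφ
  have c2 := H.cont _ hη
  have c4 := H.cont_ent hη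
  have c5 := H.cont_v τ m hφ
  have c6 := H.cont _ (H.ΓS _ hη _ hη)
  refine (H.logsob hS hA hτ m (H.mul hη hφ) (fun x hx hx' => by simp [h0 x hx hx'])
    (le_trans (H.int_mono (by fun_prop) (by fun_prop) fun x hx => ?_) h1)).trans ?_
  · rw [mul_pow]; exact mul_le_of_le_one_left (sq_nonneg _) (hη1 x hx)
  · rw [H.int_v_mul τ m hη hφ]
    refine H.int_mono (by fun_prop) (by fun_prop) fun x _ => ?_
    gcongr
    exact le_max_left _ _

omit H in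
lemma fin_pt {Λ : ℝ} (hΛ : 0 < Λ) (r : ℝ) : (√(1 + r ^ 2 / Λ))⁻¹ * (r ^ 2 * Real.log (r ^ 2)) ≤
    Real.log Λ * ((√(1 + r ^ 2 / Λ))⁻¹ * r ^ 2) + r ^ 2 := by
  rcases eq_or_ne r 0 with rfl | hr
  · simp
  set s := √(1 + r ^ 2 / Λ) with hs
  have h0 : 0 < s := by positivity
  have h1 : s ^ 2 = 1 + r ^ 2 / Λ := Real.sq_sqrt (by positivity)
  have h2 : Real.log (r ^ 2) ≤ Real.log Λ + s := by
    have e1 : Real.log (r ^ 2) = Real.log Λ + Real.log (r ^ 2 / Λ) := by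
      rw [Real.log_div (by positivity) hΛ.ne']; ring
    have e2 : Real.log (r ^ 2 / Λ) ≤ Real.log ((s / 2) ^ 2 * 4) :=
      Real.log_le_log (by positivity) (by nlinarith)
    rw [Real.log_mul (by positivity) (by norm_num), Real.log_pow] at e2
    have e3 := Real.log_le_sub_one_of_pos (show 0 < s / 2 by positivity)
    have e4 : Real.log 4 ≤ 2 := by
      rw [show (4 : ℝ) = 2 ^ 2 by norm_num, Real.log_pow]
      have := Real.log_le_sub_one_of_pos (show (0 : ℝ) < 2 by norm_num)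
      push_cast; linarith
    push_cast at e2
    linarith
  have h3 := mul_le_mul_of_nonneg_left h2 (show 0 ≤ s⁻¹ * r ^ 2 by positivity)
  have h4 : s⁻¹ * r ^ 2 * s = r ^ 2 := by field_simp
  nlinarith

/-- the final estimate; it needs no geometry -/
lemma final2 {lam p R₀ Λ : ℝ} {Bs : Set (X → ℝ)} {C : Set X} (hI : T.Inv τ m lam p Bs C)
    (hτ : 0 ≤ τ) (hΛ : 0 < Λ) (hR : ∀ x ∈ T.U, -R₀ ≤ T.R x)
    (hB : ∀ φ ∈ T.S, ∫ x, φ x ^ 2 ∂T.μ < 1 → (fun x => (√(1 + φ x ^ 2 / Λ))⁻¹) ∈ Bs)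
    (hl : lam ≤ -m - τ * R₀ - Real.log Λ - (3 / 2 * Real.log (4 * Real.pi * τ) + 3)) :
    -1 < p := by
  obtain ⟨φ, hφ, -, h1, p', hp, h2⟩ := hI
  have h3 := h2 _ (mem_insert_of_mem _ (hB φ hφ h1))
  have hpos : ∀ r : ℝ, 0 < 1 + r ^ 2 / Λ := fun r => by positivity
  have hF : ∀ r : ℝ, ContDiffAt ℝ ∞ (fun r : ℝ => (√(1 + r ^ 2 / Λ))⁻¹) r := fun r =>
    (ContDiffAt.sqrt (f := fun r : ℝ => 1 + r ^ 2 / Λ) (n := ∞) (by fun_prop) (hpos r).ne').inv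
      (Real.sqrt_pos.2 (hpos r)).ne'
  have hG : ∀ r : ℝ, ContDiffAt ℝ ∞ (fun r : ℝ => (√(1 + r ^ 2 / Λ))⁻¹ * r) r := fun r =>
    (hF r).mul contDiffAt_id
  have hd : ∀ r : ℝ, 0 ≤ deriv (fun r : ℝ => (√(1 + r ^ 2 / Λ))⁻¹ * r) r := fun r => by
    have hs := Real.sqrt_pos.2 (hpos r)
    have d1 : HasDerivAt (fun r : ℝ => 1 + r ^ 2 / Λ) (2 * r / Λ) r := by
      simpa using ((hasDerivAt_pow 2 r).div_const Λ).const_add 1
    have d2 := ((d1.sqrt (hpos r).ne').fun_inv hs.ne').fun_mul (hasDerivAt_id' r)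
    rw [d2.deriv]
    have h5 : √(1 + r ^ 2 / Λ) ^ 2 = 1 + r ^ 2 / Λ := Real.sq_sqrt (hpos r).le
    set s := √(1 + r ^ 2 / Λ)
    have : -(2 * r / Λ / (2 * s)) / s ^ 2 * r + s⁻¹ * 1 = (s ^ 2 - r ^ 2 / Λ) / s ^ 3 := by
      field_simp; ring
    rw [this, h5]
    simp only [add_sub_cancel_right]
    positivity
  have hh := H.comp _ hφ _ fun x _ => hF (φ x)
  have hg := H.comp _ hφ _ fun x _ => hG (φ x)
  have c1 := H.cont _ hφ
  have c2 := H.cont _ hh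
  have c3 := H.cont _ (H.LS _ hφ)
  have c5 := H.cont_v τ m hφ
  have h4 : ∫ x, (√(1 + φ x ^ 2 / Λ))⁻¹ * φ x * T.L φ x ∂T.μ ≤ 0 := by
    rw [H.green _ hg _ hφ, neg_nonpos]
    refine H.int_nonneg fun x hx => ?_
    rw [H.Γ_comp _ hφ _ (fun x _ => hG (φ x)) _ hφ x hx]
    exact mul_nonneg (hd _) (H.Γ_nonneg _ hφ x hx)
  have h5 : ∫ x, (-4 * τ * ((√(1 + φ x ^ 2 / Λ))⁻¹ * φ x * T.L φ x)
      + lam * ((√(1 + φ x ^ 2 / Λ))⁻¹ * φ x ^ 2) - φ x ^ 2) ∂T.μ ≤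
      ∫ x, max (T.v τ m φ x) 0 ∂T.μ := by
    refine H.int_mono (by fun_prop) (by fun_prop) fun x hx => ?_
    have e1 := fin_pt hΛ (φ x)
    have e2 : 1 ≤ √(1 + φ x ^ 2 / Λ) := Real.one_le_sqrt.2 (le_add_of_nonneg_right (by positivity))
    have e3 := inv_le_one_of_one_le₀ e2
    set h := (√(1 + φ x ^ 2 / Λ))⁻¹
    have e4 : 0 ≤ h := by positivity
    have e5 : h * T.v τ m φ x ≤ max (T.v τ m φ x) 0 :=
      (mul_le_mul_of_nonneg_left (le_max_left _ _) e4).trans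
        (mul_le_of_le_one_left (le_max_right _ _) e3)
    refine le_trans ?_ e5
    have e6 := mul_le_mul_of_nonneg_right hl (show 0 ≤ h * φ x ^ 2 by positivity)
    have e7 := mul_le_mul_of_nonneg_right (hR x hx) (show 0 ≤ τ * (h * φ x ^ 2) by positivity)
    unfold v
    linarith
  rw [H.int_sub (by fun_prop) (by fun_prop), H.int_add (by fun_prop) (by fun_prop),
    integral_const_mul, integral_const_mul] at h5
  nlinarith

end Tri.Ok

end Vale.Agent.P216E
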