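import Vale.Agent.P216FB.Plan
import Vale.Agent.P216LS.Tub

/-! P216E: the surgery datum of the entropy argument -/

open scoped Manifold ContDiff Topology ENNReal
open Set MeasureTheory

noncomputable section

namespace Vale.Agent.P216E

open Vale.Agent.P216R Vale.Agent.P216LS Vale.Agent.P216DC

/-- all surgeries allow an entropy cut, and the total error is at most `η` -/
def Tb (c A : ℝ) : P216FB.TbT := fun _ _ _ _ g b d T η =>
  ∃ (S : Finset ℝ) (η₁ : ℝ), 0 ≤ η₁ ∧ S.card * η₁ * (1 + T) ≤ η ∧ ∀ t ∈ Ioo 0 T,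
    preS b d t = postS b d t ∨ (t ∈ S ∧ CutD c A η₁ (g t) (preS b d t) (postS b d t))

theorem Tb.mono {M : Type} [TopologicalSpace M] [ChartedSpace E3 M] [MeasurableSpace M]
    {c A T T' η η' : ℝ} {g : ℝ → Ten E3 M} {b d : M → ℝ} (h : Tb c A M g b d T η) (hT : T' ≤ T)
    (e : η ≤ η') : Tb c A M g b d T' η' := by
  obtain ⟨S, η₁, h1, h2, h3⟩ := h
  refine ⟨S, η₁, h1, le_trans ?_ (h2.trans e), fun t ht => h3 t ⟨ht.1, ht.2.trans_le hT⟩⟩
  gcongr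

/-- **NCG**: global no collapsing, with a constant that depends on the initial metric only -/
def NCG (Tb : P216FB.TbT) : Prop :=
  ∀ (N : Type) [TopologicalSpace N] [ChartedSpace E3 N] [IsManifold 𝓘(ℝ, E3) ∞ N]
    [MeasurableSpace N] [BorelSpace N] (U₀ : Set N) (g₀ : Ten E3 N) (T₀ : ℝ), Met g₀ U₀ →
    IsCompact U₀ → Hs U₀ → ∃ κ > 0, ∃ η₀ > 0,
    ∀ (M : Type) [TopologicalSpace M] [ChartedSpace E3 M] [IsManifold 𝓘(ℝ, E3) ∞ M]
      [MeasurableSpace M] [BorelSpace M] (g : ℝ → Ten E3 M) (b d : M → ℝ) (T η : ℝ),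
      SF g b d 0 T → T ≤ T₀ → Copy g₀ U₀ (g 0) (postS b d 0) → η ≤ η₀ → Tb M g b d T η →
      ∀ W s, Sl b d 0 T W s → ∀ y ∈ W, ∀ ρ ∈ Ioc (0 : ℝ) 1, NC κ (g s) W y ρ

end Vale.Agent.P216E
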